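import Vale.Agent.P141.H293.Own3
import Vale.Agent.P141.H125.Stk0
import Vale.Agent.P141.H505.SkelStack1

/-!
# P141, line (A): own energy of the moving stack in the letters of `SkelStack1`

Operator caps inside the windows only: the slots are restricted to the windows.
-/

namespace Vale.Agent.P141.H293

open Finset Matrix Vale.Agent.P141.PL Vale.Agent.P141.PL.H103 Vale.Agent.P141.H103
open Vale.Agent.P141.H505 Vale.Agent.P141.H258
open Vale.Agent.P141.H389 (Wf XW XWs TV SVM SV lvV)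
open Vale.Agent.P075 (Ix val rad GX phi res delt phi_psd res_psd trace_mul_nonneg)
open Vale.Agent.P141.H585.PairCh (phs dls mv mv_zero)

noncomputable section

/-! ### Windows -/

section wn

open Classical in
/-- restriction to the windows `iv N r` (row) and `iv N r'` -/
def wn {α : Type*} [Zero α] (N : ℕ) (r r' : ℤ) (b : ℤ → ℤ → α) : ℤ → ℤ → α := fun x y =>
  if x ∈ iv N r ∧ y ∈ iv N r' then b x y else 0

variable {α : Type*} [Zero α]

theorem wn_in {N : ℕ} {r r' : ℤ} (b : ℤ → ℤ → α) {x y : ℤ} (hx : x ∈ iv N r)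
    (hy : y ∈ iv N r') : wn N r r' b x y = b x y := if_pos ⟨hx, hy⟩

theorem wn_out {N : ℕ} {r r' : ℤ} (b : ℤ → ℤ → α) {x y : ℤ}
    (h : ¬ (x ∈ iv N r ∧ y ∈ iv N r')) :
    wn N r r' b x y = 0 := if_neg h

/-- a cell lies in the window iff one of its points does -/
theorem cell_iff {N a : ℕ} (ha : a ≤ N) {r n x : ℤ} (hx : x ∈ iv a n) :
    x ∈ iv N r ↔ n ∈ iv (N - a) r := by
  rw [mem_iv, mem_iv, ← mem_iv.1 hx, ix_ix, Nat.add_sub_cancel' ha]

end wn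

variable {κ : Type*} [Fintype κ] [DecidableEq κ]

omit [DecidableEq κ] in
theorem QW_wn_in {N a k : ℕ} (ha : a ≤ N) (hk : k ≤ N) {r r' : ℤ} (b : ℤ → ℤ → κ → ℝ)
    (T : ℤ → Matrix κ κ ℝ) {n m : ℤ} (hn : n ∈ iv (N - a) r) (hm : m ∈ iv (N - k) r') :
    QW a k (wn N r r' b) T n m = QW a k b T n m :=
  QW_congr fun x hx y hy => wn_in b ((cell_iff ha hx).2 hn) ((cell_iff hk hy).2 hm)

omit [DecidableEq κ] in
theorem QW_wn_out {N a k : ℕ} (ha : a ≤ N) (hk : k ≤ N) {r r' : ℤ} (b : ℤ → ℤ → κ → ℝ)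
    (T : ℤ → Matrix κ κ ℝ) {n m : ℤ} (h : ¬ (n ∈ iv (N - a) r ∧ m ∈ iv (N - k) r')) :
    QW a k (wn N r r' b) T n m = 0 := by
  rw [QW_congr (b' := fun _ _ => 0) fun _ hx _ hy => wn_out b fun h2 =>
    h ⟨(cell_iff ha hx).1 h2.1, (cell_iff hk hy).1 h2.2⟩]
  ext j j'
  rw [QW]
  simp

omit [DecidableEq κ] in
theorem ms_wn (N : ℕ) (r r' : ℤ) (b : ℤ → ℤ → κ → ℝ) (L : ℤ → ℤ → Matrix κ κ ℝ) (k : ℕ) :
    ms N r r' (wn N r r' b) L k = ms N r r' b L k :=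
  Finset.sum_congr rfl fun x hx => Finset.sum_congr rfl fun y hy => by rw [wn_in b hx hy]

omit [DecidableEq κ] in
theorem ms_congr {N : ℕ} {r r' : ℤ} {b b' : ℤ → ℤ → κ → ℝ} (L : ℤ → ℤ → Matrix κ κ ℝ) (k : ℕ)
    (h : ∀ x ∈ iv N r, ∀ y ∈ iv N r', b x y = b' x y) : ms N r r' b L k = ms N r r' b' L k :=
  Finset.sum_congr rfl fun x hx => Finset.sum_congr rfl fun y hy => by rw [h x hx y hy]

/-- the error of one scale does not see the windows -/
theorem cP_wn (J N : ℕ) (r r' : ℤ) (W M Nm : ℤ → ℕ → ℤ → Matrix κ κ ℝ) (Q : ℕ → ℤ → ℤ → Prop)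
    (b : ℕ → ℤ → ℤ → κ → ℝ) (k : ℕ) :
    cP J N r r' W M Nm Q (fun k => wn N r r' (b k)) k = cP J N r r' W M Nm Q b k := by
  unfold cP
  rw [ms_wn, ms_wn, ms_congr (b := af Q (fun k => wn N r r' (b k)) k) (b' := af Q b k)]
  intro x hx y hy
  have e : (fun k => wn N r r' (b k)) (k + 1) x y = b (k + 1) x y := wn_in (b (k + 1)) hx hy
  unfold af
  rw [e]

omit [DecidableEq κ] in
theorem pP_nonneg {N : ℕ} [DecidableEq κ] {W Nn M Nm : ℤ → ℕ → ℤ → Matrix κ κ ℝ}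
    (h : Wf N W Nn M Nm) (Q : ℕ → ℤ → ℤ → Prop) (b : ℕ → ℤ → ℤ → κ → ℝ) (J k a : ℕ) (n m : ℤ) :
    0 ≤ pP J W M Nm Q b k a n m := by
  have h1 : 0 ≤ (QW a (k + 1) (b (k + 1))
      (fun x => M x (k + 1) m * (W x (k + 1) m)⁻¹ * M x (k + 1) m) n m).trace := by
    rw [tr_QW1]
    exact mul_nonneg (by positivity) (Finset.sum_nonneg fun x _ => Finset.sum_nonneg fun y _ =>
      H389.quad_nonneg (h.pd x _ _) (h.sM x _ _) _)
  have h2 : 0 ≤ (QW a (k + 1) (b (k + 1)) (fun x => Nm x (k + 1) m) n m).trace :=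
    (QW_psd (fun x => h.pNm x _ _) _ _).trace_nonneg
  have h3 : 0 ≤ (QW a k (af Q b k) (fun x => W x k (2 * m)) n (2 * m)).trace :=
    (QW_psd (fun x => (h.pd x _ _).posSemidef) _ _).trace_nonneg
  have h4 : 0 ≤ (QW a k (af Q b k) (fun x => W x k (2 * m + 1)) n (2 * m + 1)).trace :=
    (QW_psd (fun x => (h.pd x _ _).posSemidef) _ _).trace_nonneg
  unfold pP
  positivity

/-- **The moving stack at hub `x3`, operator caps inside the windows, any path.** -/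
theorem stkO {k₀ N : ℕ} (hkN : k₀ ≤ N) (T S : ℤ) {W Nn M Nm : ℤ → ℕ → ℤ → Matrix κ κ ℝ}
    (h : Wf N W Nn M Nm) {Q : ℕ → ℤ → ℤ → Prop} {b : ℕ → ℤ → ℤ → κ → ℝ}
    (hQ : ∀ k x m, k₀ ≤ k → k < N → ¬ Q k x m → ∀ y ∈ iv k m, b k x y = b (k + 1) x y)
    {μ : ℝ} (hμ : 0 < μ) (J : ℕ)
    (cap : ∀ k a n m, k₀ ≤ k → k + 1 ≤ a → a ≤ N → n ∈ iv (N - a) T → m ∈ iv (N - (k + 1)) S →
      (1 - (μ / 4 ^ J) • (2 : ℝ) • XW (b (k + 1)) W (k + 1) a n m).PosSemidef)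
    {H Qm : ℝ} (hH : ms N T S (b k₀) (fun x m => W x k₀ m) k₀ ≤ H)
    (hQm : ∑ k ∈ Ico k₀ N, cP J N T S W M Nm Q b k ≤ Qm) :
    H125.S0.Stk0 k₀ N T S μ J (fun k => XW (wn N T S (b k)) W k)
      (fun k a n m => XW (wn N T S (b k)) W k a (2 * n) m)
      (fun k a n m => XW (wn N T S (b k)) W k a (2 * n + 1) m) (fun _ _ _ _ => 0)
      (fun _ _ _ _ => 0) (fun _ _ _ _ => 0)
      (fun k a n m => pP J W M Nm Q (fun k => wn N T S (b k)) k a n m)
      (fun k a n m => (1 / 4) * SC μ J (rad (Ix k)) (XWs (wn N T S (b (k + 1))) W k a n m))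
      H 0 Qm where
  hkN := hkN
  hμ := hμ
  psd := fun k a n m => H389.XW_psd h _ k a n m
  psd0 := fun k a n m => H389.XW_psd h _ k a _ m
  psd1 := fun k a n m => H389.XW_psd h _ k a _ m
  nγ := fun k a n m => mul_nonneg (by norm_num)
    (SC_nonneg (H389.XW_psd h _ (k + 1) a n m) hμ J)
  np := fun k a n m => pP_nonneg h Q _ J k a n m
  par := fun k a n m h1 h2 h3 => H389.XW_out N k _ W a h2 h3 n m
  ch0 := fun k a n m _ _ _ => (mv_zero _).symm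
  ch1 := fun k a n m _ _ _ => (mv_zero _).symm
  out := fun k a n m h1 h2 h3 => by
    rw [H389.XW_out N k _ W a h2 h3 n m, add_zero]
    have p0 := H389.XW_psd h (wn N T S (b k)) k a (2 * n) m
    have p1 := H389.XW_psd h (wn N T S (b k)) k a (2 * n + 1) m
    have hd := H336.SD_nonneg p0 p1 hμ J
    have hs : SG μ J ((1 / 2 : ℝ) • (XW (wn N T S (b k)) W k a (2 * n) m
          + XW (wn N T S (b k)) W k a (2 * n + 1) m))
        + (1 / 2) * SD μ J (XW (wn N T S (b k)) W k a (2 * n) m)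
          (XW (wn N T S (b k)) W k a (2 * n + 1) m)
        ≤ (1 / 2) * (SG μ J (XW (wn N T S (b k)) W k a (2 * n) m)
          + SG μ J (XW (wn N T S (b k)) W k a (2 * n + 1) m)) := by
      unfold SG SD
      rw [Finset.mul_sum, ← Finset.sum_add_distrib, ← Finset.sum_add_distrib, Finset.mul_sum]
      refine Finset.sum_le_sum fun j _ => ?_
      have hj : 0 < μ / 4 ^ j := by positivity
      have r1 := P075.R.GX_row (smul_psd p0 hj.le) (smul_psd p1 hj.le)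
      rw [← smul_add, smul_comm] at r1
      have r2 := mul_le_mul_of_nonneg_left r1 (inv_nonneg.2 hj.le)
      linarith
    linarith
  lip := fun k a n m _ _ _ => by simp
  mid := fun k a n m h1 h2 h3 => by
    refine mid_P h (Q := Q) (b := fun k => wn N T S (b k)) (k₀ := k₀) (N := N) ?_ hμ J h1
      (by omega) n m ?_
    · intro k x m hk1 hk2 hq y hy
      by_cases hw : x ∈ iv N T ∧ y ∈ iv N S
      · rw [wn_in _ hw.1 hw.2, wn_in _ hw.1 hw.2]
        exact hQ k x m hk1 hk2 hq y hy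
      · rw [wn_out _ hw, wn_out _ hw]
    · by_cases hw : n ∈ iv (N - a) T ∧ m ∈ iv (N - (k + 1)) S
      · have e : XW (wn N T S (b (k + 1))) W (k + 1) a n m = XW (b (k + 1)) W (k + 1) a n m :=
          QW_wn_in h3 (by omega) _ _ hw.1 hw.2
        rw [e]
        exact cap k a n m h1 h2 h3 hw.1 hw.2
      · have e : XW (wn N T S (b (k + 1))) W (k + 1) a n m = 0 :=
          QW_wn_out h3 (by omega) _ _ hw
        rw [e, smul_zero, smul_zero, sub_zero]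
        exact PosSemidef.one
  hH := fun a h1 h2 => by
    have := bsum_tr h2 hkN T S (wn N T S (b k₀)) (fun x m => W x k₀ m)
    unfold XW
    rw [this, ms_wn]
    exact hH
  hQo := fun r => by simp
  hQm := fun r => by
    have e : ∀ k ∈ Ico k₀ (N - r), (2 : ℝ) ^ (k + 1 + r) * 2 ^ (k + 1)
        * ∑ m ∈ iv (N - (k + 1)) S, ∑ n ∈ iv (N - (k + 1 + r)) T,
          pP J W M Nm Q (fun k => wn N T S (b k)) k (k + 1 + r) n m
        = cP J N T S W M Nm Q b k := by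
      intro k hk
      rw [mem_Ico] at hk
      rw [pP_sum (by omega) (by omega) J T S W M Nm Q, cP_wn]
    rw [Finset.sum_congr rfl e]
    refine le_trans (Finset.sum_le_sum_of_subset_of_nonneg ?_ fun k hk _ => ?_) hQm
    · exact Ico_subset_Ico le_rfl (by omega)
    · exact cP_nonneg h Q b J T S k

/-! ### The letters of `SkelStack1` -/

section v1

variable {κ : Type} [Fintype κ] [DecidableEq κ]

open Vale.Agent.P141.H505.Sk1 (Ch Wgt W3 eT dTh eM Num NumA)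

theorem scale_cap {n : Type*} [Fintype n] [DecidableEq n] {X : Matrix n n ℝ} {c2 x2 : ℝ} {J : ℕ}
    (hx : 0 < x2) (hc : c2 ≤ 4 ^ J * x2)
    (h : (c2 • (1 : Matrix n n ℝ) - X).PosSemidef) :
    (1 - (x2⁻¹ / 4 ^ (J + 1)) • (2 : ℝ) • X).PosSemidef := by
  have h4 : (0 : ℝ) < 4 ^ J := by positivity
  have e : (1 - (x2⁻¹ / 4 ^ (J + 1)) • (2 : ℝ) • X : Matrix n n ℝ)
      = (x2⁻¹ / 4 ^ (J + 1)) • (2 : ℝ) • (c2 • (1 : Matrix n n ℝ) - X)
        + (1 - (x2⁻¹ / 4 ^ (J + 1)) * 2 * c2) • (1 : Matrix n n ℝ) := by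
    module
  rw [e]
  refine ((h.smul (by norm_num : (0 : ℝ) ≤ 2)).smul (by positivity)).add
    (PosSemidef.one.smul ?_)
  have h1 : x2⁻¹ / 4 ^ (J + 1) * 2 * c2 ≤ x2⁻¹ / 4 ^ (J + 1) * 2 * (4 ^ J * x2) :=
    mul_le_mul_of_nonneg_left hc (by positivity)
  have h2 : x2⁻¹ / 4 ^ (J + 1) * 2 * (4 ^ J * x2) = 1 / 2 := by
    rw [pow_succ]
    field_simp
    norm_num
  linarith

open scoped Classical in
/-- the errors are at most the numbers of the slot -/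
theorem cP_le_E {k₀ N : ℕ} {r1 r2 r3 : ℤ} {pl : ℕ → ℤ} {β : ℝ} {A : ℕ → ℤ → ℤ → ℝ}
    {b c : ℕ → ℤ → ℤ → κ → ℝ} {Th Nn M Nm : ℤ → ℕ → ℤ → Matrix κ κ ℝ} {E cC : ℝ}
    (hw : Wgt N β Th Nn M Nm) (h : Num k₀ N r1 r2 r3 pl A b c Th M Nm E cC) (J : ℕ) :
    ∑ k ∈ Ico k₀ N, cP J N r1 r3 Th M Nm (fun k x m => Ch c k (ix k x) m) c k
      ≤ 66 * ((J : ℝ) + 1) ^ 3 * E := by
  have hE : 0 ≤ E := by
    refine le_trans ?_ h.dr
    exact Finset.sum_nonneg fun k _ => Finset.sum_nonneg fun x _ => Finset.sum_nonneg fun z _ => by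
      have := (hw.wf.pNm x (k + 1) (ix (k + 1) z)).dotProduct_mulVec_nonneg (c (k + 1) x z)
      rwa [star_trivial] at this
  have h1 : ∀ k, ms N r1 r3 (c (k + 1))
      (fun x m => M x (k + 1) m * (Th x (k + 1) m)⁻¹ * M x (k + 1) m) (k + 1)
      ≤ ∑ x ∈ iv N r1, ∑ z ∈ iv N r3, eM (c (k + 1)) Th M k x z := by
    intro k
    refine Finset.sum_le_sum fun x _ => Finset.sum_le_sum fun z _ => ?_
    have e1 : c (k + 1) x z ⬝ᵥ (M x (k + 1) (ix (k + 1) z) * (Th x (k + 1) (ix (k + 1) z))⁻¹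
          * M x (k + 1) (ix (k + 1) z)) *ᵥ c (k + 1) x z
        = (M x (k + 1) (ix (k + 1) z) *ᵥ c (k + 1) x z) ⬝ᵥ (Th x (k + 1) (ix (k + 1) z))⁻¹ *ᵥ
          (M x (k + 1) (ix (k + 1) z) *ᵥ c (k + 1) x z) := by
      rw [← mulVec_mulVec, ← mulVec_mulVec, dotProduct_mulVec _ (M _ _ _), ← mulVec_transpose,
        hw.wf.sM]
    have e2 : 0 ≤ (dTh Th k x z *ᵥ c (k + 1) x z) ⬝ᵥ (Th x k (ix k z))⁻¹ *ᵥ
        (dTh Th k x z *ᵥ c (k + 1) x z) := by
      have := (hw.wf.pd x k (ix k z)).inv.posSemidef.dotProduct_mulVec_nonneg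
        (dTh Th k x z *ᵥ c (k + 1) x z)
      rwa [star_trivial] at this
    unfold eM
    linarith
  have h2 : ∀ k, ms N r1 r3 (c (k + 1)) (fun x m => Nm x (k + 1) m) (k + 1)
      = ∑ x ∈ iv N r1, ∑ z ∈ iv N r3,
        c (k + 1) x z ⬝ᵥ Nm x (k + 1) (ix (k + 1) z) *ᵥ c (k + 1) x z := fun k => rfl
  have h3 : ∀ k, ms N r1 r3 (af (fun k x m => Ch c k (ix k x) m) c k) (fun x m => Th x k m) k
      ≤ ∑ x ∈ iv N r1, ∑ z ∈ iv N r3,
        (if Ch c k (ix k x) (ix k z) then eT (c (k + 1)) Th k x z else 0) := by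
    intro k
    refine Finset.sum_le_sum fun x _ => Finset.sum_le_sum fun z _ => ?_
    by_cases hc : Ch c k (ix k x) (ix k z)
    · have e : af (fun k x m => Ch c k (ix k x) m) c k x z = c (k + 1) x z := if_pos hc
      rw [e, if_pos hc, eT]
    · have e : af (fun k x m => Ch c k (ix k x) m) c k x z = 0 := if_neg hc
      rw [e, if_neg hc, zero_dotProduct]
  have s1 := (Finset.sum_le_sum fun k (_ : k ∈ Ico k₀ N) => h1 k).trans h.var
  have s2 : ∑ k ∈ Ico k₀ N, ms N r1 r3 (c (k + 1)) (fun x m => Nm x (k + 1) m) (k + 1) ≤ E := by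
    simp only [h2]; exact h.dr
  have s3 := (Finset.sum_le_sum fun k (_ : k ∈ Ico k₀ N) => h3 k).trans h.born
  have hJ : (0 : ℝ) ≤ J := Nat.cast_nonneg J
  have hJ1 : (J : ℝ) + 1 ≤ ((J : ℝ) + 1) ^ 3 := by nlinarith [mul_nonneg hJ hJ]
  unfold cP
  simp only [Finset.sum_add_distrib, ← Finset.mul_sum]
  have t1 := mul_le_mul_of_nonneg_left s1 (show (0 : ℝ) ≤ 64 * ((J : ℝ) + 1) ^ 3 by positivity)
  have t2 := mul_le_mul_of_nonneg_left s2 (show (0 : ℝ) ≤ (J : ℝ) + 1 by positivity)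
  have t3 := mul_le_mul_of_nonneg_left s3 (show (0 : ℝ) ≤ (J : ℝ) + 1 by positivity)
  have t4 := mul_le_mul_of_nonneg_right hJ1 hE
  linarith

/-- **Own instance in the letters of `SkelStack1`** : `μ = x2⁻¹`, levels `0 .. J + 1`. -/
theorem own1 {k₀ N : ℕ} (hkN : k₀ ≤ N) {r1 r2 r3 : ℤ} {pl : ℕ → ℤ} {β : ℝ}
    {A : ℕ → ℤ → ℤ → ℝ} {b c : ℕ → ℤ → ℤ → κ → ℝ} {Th Nn M Nm : ℤ → ℕ → ℤ → Matrix κ κ ℝ}
    {E cC x2 : ℝ} {J : ℕ} (hw : Wgt N β Th Nn M Nm)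
    (h : Num k₀ N r1 r2 r3 pl A b c Th M Nm E cC) (hx : 0 < x2) (hJ : cC ^ 2 ≤ 4 ^ J * x2) :
    H125.S0.Stk0 k₀ N r1 r3 x2⁻¹ (J + 1) (fun k => XW (wn N r1 r3 (c k)) Th k)
      (fun k a n m => XW (wn N r1 r3 (c k)) Th k a (2 * n) m)
      (fun k a n m => XW (wn N r1 r3 (c k)) Th k a (2 * n + 1) m) (fun _ _ _ _ => 0)
      (fun _ _ _ _ => 0) (fun _ _ _ _ => 0)
      (fun k a n m => pP (J + 1) Th M Nm (fun k x m => Ch c k (ix k x) m)
        (fun k => wn N r1 r3 (c k)) k a n m)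
      (fun k a n m => (1 / 4) * SC x2⁻¹ (J + 1) (rad (Ix k))
        (XWs (wn N r1 r3 (c (k + 1))) Th k a n m))
      E 0 (528 * ((J : ℝ) + 1) ^ 3 * E) := by
  have hE : 0 ≤ E := by
    refine le_trans ?_ h.dr
    exact Finset.sum_nonneg fun k _ => Finset.sum_nonneg fun x _ => Finset.sum_nonneg fun z _ => by
      have := (hw.wf.pNm x (k + 1) (ix (k + 1) z)).dotProduct_mulVec_nonneg (c (k + 1) x z)
      rwa [star_trivial] at this
  refine stkO hkN r1 r3 hw.wf (Q := fun k x m => Ch c k (ix k x) m) ?_ (inv_pos.2 hx) (J + 1) ?_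
    ?_ ?_
  · intro k x m _ _ hq y hy
    by_contra hne
    exact hq ⟨x, mem_iv.2 rfl, y, hy, fun e => hne e.symm⟩
  · intro k a n m h1 h2 h3 hn hm
    refine scale_cap hx hJ ?_
    exact h.cap (k + 1) a n m (by omega) (by omega) (by omega) h3 (k + 1) (by omega) (by omega)
      hn hm
  · exact h.en k₀ le_rfl hkN k₀ le_rfl (by omega)
  · refine (cP_le_E hw h (J + 1)).trans ?_
    have hJ0 : (0 : ℝ) ≤ J := Nat.cast_nonneg J
    have h1 : (((J + 1 : ℕ) : ℝ) + 1) ^ 3 ≤ 8 * ((J : ℝ) + 1) ^ 3 := by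
      have h2 : ((J + 1 : ℕ) : ℝ) + 1 ≤ 2 * ((J : ℝ) + 1) := by push_cast; linarith
      have h3 := pow_le_pow_left₀ (by positivity) h2 3
      rw [mul_pow] at h3
      linarith
    have h2 := mul_le_mul_of_nonneg_right h1 hE
    linarith

end v1

end

end Vale.Agent.P141.H293
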