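import Vale.Agent.P141.H505.Node

/-!
# P141, line (A): the middle step of a moving slot with a weight, all levels at once

Slot with the weight `T` on the rows; the two halves of the middle cell carry the weights
`T + Np - Nm + M` and `T + Np - Nm - M` (`Np`, `Nm` positive, `M` symmetric). The part `Np` only
helps, `Nm` costs its trace, `M` costs `tr (Cᵀ M T⁻¹ M C)`.
-/

namespace Vale.Agent.P141.H293

open Finset Matrix Vale.Agent.P075 Vale.Agent.P141.H505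

noncomputable section

variable {ρ ν : Type*} [Fintype ρ] [DecidableEq ρ] [Fintype ν] [DecidableEq ν]

/-- a positive matrix is at most its trace -/
theorem le_trace {W : Matrix ρ ρ ℝ} (hW : W.PosSemidef) {t : ℝ} (ht : W.trace ≤ t) :
    (t • (1 : Matrix ρ ρ ℝ) - W).PosSemidef := by
  obtain ⟨B, hB, rfl⟩ := exists_sq hW
  have hBs := psd_isSymm hB
  refine PosSemidef.of_dotProduct_mulVec_nonneg ?_ fun x => ?_
  · rw [IsHermitian, conjTranspose_eq_transpose_of_trivial, transpose_sub, transpose_smul,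
      transpose_one, transpose_mul, hBs]
  · have e1 : x ⬝ᵥ ((B * B) *ᵥ x) = (B *ᵥ x) ⬝ᵥ (B *ᵥ x) := by
      rw [← mulVec_mulVec, dotProduct_mulVec, ← mulVec_transpose, hBs]
    have e2 : (B *ᵥ x) ⬝ᵥ (B *ᵥ x) ≤ (B * B).trace * (x ⬝ᵥ x) := by
      have e3 : (B * B).trace = ∑ i, ∑ j, B i j ^ 2 := by
        simp only [Matrix.trace, diag_apply, Matrix.mul_apply]
        refine Finset.sum_congr rfl fun i _ => Finset.sum_congr rfl fun j _ => ?_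
        rw [sq]
        congr 1
        exact congrFun (congrFun hBs i) j
      rw [e3, dotProduct, Finset.sum_mul]
      refine Finset.sum_le_sum fun i _ => ?_
      have h := Finset.sum_mul_sq_le_sq_mul_sq univ (fun j => B i j) x
      simp only [mulVec, dotProduct]
      rw [← sq]
      refine h.trans (le_of_eq ?_)
      congr 1
      exact Finset.sum_congr rfl fun j _ => sq _
    have h0 : 0 ≤ x ⬝ᵥ x := by
      rw [dotProduct]
      exact Finset.sum_nonneg fun i _ => mul_self_nonneg _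
    have h1 := mul_le_mul_of_nonneg_right ht h0
    simp only [star_trivial]
    rw [sub_mulVec, dotProduct_sub, smul_mulVec, one_mulVec, dotProduct_smul, smul_eq_mul, e1]
    linarith

/-- the tangent at a child -/
theorem tan_child (B : Matrix ρ ν ℝ) (E : Matrix ρ ρ ℝ) {Z Gp Gm : Matrix ν ν ℝ}
    (hZ : Z.PosSemidef) (hp : Gp.PosSemidef) (hm : Gm.PosSemidef)
    (e : Z = Bᵀ * B + Bᵀ * E * B + Gp - Gm) {t : ℝ} (ht : 0 < t) :
    GX (t • (Bᵀ * B)) + (E * hP (t • (B * Bᵀ))).trace - t * Gm.trace ≤ GX (t • Z) := by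
  have hX : (Bᵀ * B).PosSemidef := psd_transpose_mul B
  have hW : (B * Bᵀ).PosSemidef := psd_mul_transpose B
  have hX' := smul_psd hX ht.le
  have hW' := smul_psd hW ht.le
  have h := GX_tangent hX' (smul_psd hZ ht.le)
  have e1 : t • Z - t • (Bᵀ * B) = t • (Bᵀ * E * B) + t • Gp - t • Gm := by
    rw [e]; module
  rw [e1, Matrix.mul_sub, Matrix.mul_add, trace_sub, trace_add] at h
  have hi := phi_inter hX' hW' (B := B) (by
    rw [Matrix.mul_smul, Matrix.smul_mul, Matrix.mul_assoc])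
  have e2 : (phi (t • (Bᵀ * B)) * (t • (Bᵀ * E * B))).trace = (E * hP (t • (B * Bᵀ))).trace := by
    have e3 : (phi (t • (Bᵀ * B)) * (t • (Bᵀ * E * B))).trace
        = (E * (B * phi (t • (Bᵀ * B)) * (t • Bᵀ))).trace := by
      rw [Matrix.mul_smul, Matrix.mul_smul, Matrix.mul_smul, trace_smul, trace_smul]
      congr 1
      rw [show phi (t • (Bᵀ * B)) * (Bᵀ * E * B) = (phi (t • (Bᵀ * B)) * Bᵀ) * (E * B) by
        simp only [Matrix.mul_assoc], trace_mul_comm]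
      simp only [Matrix.mul_assoc]
    rw [e3, hi, Matrix.mul_assoc, Matrix.mul_smul, hP_eq' hW']
  have h1 : 0 ≤ (phi (t • (Bᵀ * B)) * (t • Gp)).trace :=
    trace_mul_nonneg (phi_psd hX') (smul_psd hp ht.le)
  have h2 : (phi (t • (Bᵀ * B)) * (t • Gm)).trace ≤ t * Gm.trace := by
    have h3 := trace_mul_nonneg (res_psd hX') (smul_psd hm ht.le)
    have e4 : (phi (t • (Bᵀ * B)) * (t • Gm)).trace
        = t * Gm.trace - (res (t • (Bᵀ * B)) * (t • Gm)).trace := by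
      rw [phi, Matrix.sub_mul, Matrix.one_mul, trace_sub, trace_smul, smul_eq_mul]
    linarith
  linarith

/-- the parent Gram matrix and its pinching -/
def pX (B₀ B₁ : Matrix ρ ν ℝ) : Matrix (ν ⊕ ν) (ν ⊕ ν) ℝ :=
  (1 / 2 : ℝ) • ((fromCols B₀ B₁)ᵀ * fromCols B₀ B₁)

omit [DecidableEq ρ] [DecidableEq ν] in
theorem pX_psd (B₀ B₁ : Matrix ρ ν ℝ) : (pX B₀ B₁).PosSemidef :=
  smul_psd (psd_transpose_mul _) (by norm_num)

omit [DecidableEq ρ] [Fintype ν] [DecidableEq ν] in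
theorem pX_blocks (B₀ B₁ : Matrix ρ ν ℝ) : pX B₀ B₁
    = fromBlocks ((1 / 2 : ℝ) • (B₀ᵀ * B₀)) ((1 / 2 : ℝ) • (B₀ᵀ * B₁))
        ((1 / 2 : ℝ) • (B₁ᵀ * B₀)) ((1 / 2 : ℝ) • (B₁ᵀ * B₁)) := by
  rw [pX, transpose_fromCols, fromRows_mul_fromCols, fromBlocks_smul]

omit [DecidableEq ρ] in
theorem pX_pinch (B₀ B₁ : Matrix ρ ν ℝ) :
    pX B₀ B₁ + rad ν * pX B₀ B₁ * rad ν = bd (B₀ᵀ * B₀) (B₁ᵀ * B₁) := by
  rw [pX_blocks, rad, bd, fromBlocks_multiply, fromBlocks_multiply, fromBlocks_add]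
  simp only [Matrix.one_mul, Matrix.zero_mul, Matrix.mul_one, Matrix.mul_zero, add_zero, zero_add,
    Matrix.neg_mul, Matrix.mul_neg, neg_neg, add_neg_cancel]
  congr 1 <;> module

omit [Fintype ρ] [DecidableEq ρ] in
theorem far_plus (B₀ B₁ : Matrix ρ ν ℝ) :
    fromCols B₀ B₁ * (1 + rad ν) * (fromCols B₀ B₁)ᵀ = (2 : ℝ) • (B₀ * B₀ᵀ) := by
  have e : (1 : Matrix (ν ⊕ ν) (ν ⊕ ν) ℝ) + rad ν = fromBlocks ((2 : ℝ) • 1) 0 0 0 := by
    rw [rad, ← fromBlocks_one, fromBlocks_add]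
    congr 1
    · module
    · simp
    · simp
    · simp
  rw [e, transpose_fromCols, fromCols_mul_fromBlocks, fromCols_mul_fromRows]
  simp

omit [Fintype ρ] [DecidableEq ρ] in
theorem far_minus (B₀ B₁ : Matrix ρ ν ℝ) :
    fromCols B₀ B₁ * (1 - rad ν) * (fromCols B₀ B₁)ᵀ = (2 : ℝ) • (B₁ * B₁ᵀ) := by
  have e : (1 : Matrix (ν ⊕ ν) (ν ⊕ ν) ℝ) - rad ν = fromBlocks 0 0 0 ((2 : ℝ) • 1) := by
    rw [rad, ← fromBlocks_one, sub_eq_add_neg, fromBlocks_neg, fromBlocks_add]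
    congr 1
    · simp
    · simp
    · simp
    · rw [neg_neg]; module
  rw [e, transpose_fromCols, fromCols_mul_fromBlocks, fromCols_mul_fromRows]
  simp

/-- **The node inequality, Gram form.** -/
theorem node_B (B₀ B₁ : Matrix ρ ν ℝ) {E : Matrix ρ ρ ℝ} (hE : Eᵀ = E) {μ : ℝ} (hμ : 0 < μ)
    (J : ℕ) (c0 : (1 - (μ / 4 ^ J) • (B₀ * B₀ᵀ)).PosSemidef)
    (c1 : (1 - (μ / 4 ^ J) • (B₁ * B₁ᵀ)).PosSemidef)
    {Z₀ Z₁ Gp₀ Gp₁ Gm₀ Gm₁ : Matrix ν ν ℝ} (hZ₀ : Z₀.PosSemidef) (hZ₁ : Z₁.PosSemidef)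
    (hp₀ : Gp₀.PosSemidef) (hp₁ : Gp₁.PosSemidef) (hm₀ : Gm₀.PosSemidef) (hm₁ : Gm₁.PosSemidef)
    (e₀ : Z₀ = B₀ᵀ * B₀ + B₀ᵀ * E * B₀ + Gp₀ - Gm₀)
    (e₁ : Z₁ = B₁ᵀ * B₁ - B₁ᵀ * E * B₁ + Gp₁ - Gm₁) :
    SG μ J (pX B₀ B₁) + (1 / 4) * SC μ J (rad ν) (pX B₀ B₁)
      ≤ (1 / 2) * (SG μ J Z₀ + SG μ J Z₁)
        + 32 * ((J : ℝ) + 1) ^ 3 * ((B₀ᵀ * (E * E) * B₀).trace + (B₁ᵀ * (E * E) * B₁).trace)
        + (1 / 2) * ((J : ℝ) + 1) * (Gm₀.trace + Gm₁.trace) := by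
  have h4 : ∀ j : ℕ, 0 < μ / 4 ^ j := fun j => by positivity
  set W0 := B₀ * B₀ᵀ with hW0
  set W1 := B₁ * B₁ᵀ with hW1
  have p0 : W0.PosSemidef := psd_mul_transpose B₀
  have p1 : W1.PosSemidef := psd_mul_transpose B₁
  set X := pX B₀ B₁ with hXd
  have hX : X.PosSemidef := pX_psd B₀ B₁
  have e₁' : Z₁ = B₁ᵀ * B₁ + B₁ᵀ * (-E) * B₁ + Gp₁ - Gm₁ := by
    rw [e₁, Matrix.mul_neg, Matrix.neg_mul]; abel
  -- the far side at a level
  have hcd : ∀ t : ℝ, 0 < t → (delt (t • W0) (t • W1)).trace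
      ≤ (phi (t • X) * (rad ν * phi (t • X) * rad ν)).trace := by
    intro t ht
    have h := delt_le_cd (r := rad ν) rad_symm rad_sq (Real.sqrt (t / 2) • fromCols B₀ B₁)
    have hs : Real.sqrt (t / 2) * Real.sqrt (t / 2) = t / 2 := Real.mul_self_sqrt (by positivity)
    have a1 : (Real.sqrt (t / 2) • fromCols B₀ B₁)ᵀ * (Real.sqrt (t / 2) • fromCols B₀ B₁)
        = t • X := by
      rw [transpose_smul, Matrix.smul_mul, Matrix.mul_smul, smul_smul, hs, hXd, pX, smul_smul]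
      congr 1
      ring
    have a2 : (Real.sqrt (t / 2) • fromCols B₀ B₁) * (1 + rad ν)
        * (Real.sqrt (t / 2) • fromCols B₀ B₁)ᵀ = t • W0 := by
      rw [transpose_smul, Matrix.mul_smul, Matrix.smul_mul, Matrix.smul_mul, smul_smul, hs,
        far_plus, smul_smul]
      congr 1
      ring
    have a3 : (Real.sqrt (t / 2) • fromCols B₀ B₁) * (1 - rad ν)
        * (Real.sqrt (t / 2) • fromCols B₀ B₁)ᵀ = t • W1 := by
      rw [transpose_smul, Matrix.mul_smul, Matrix.smul_mul, Matrix.smul_mul, smul_smul, hs,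
        far_minus, smul_smul]
      congr 1
      ring
    rwa [a1, a2, a3] at h
  have hF := first_le p0 p1 hμ J c0 c1 ((1 / 2 : ℝ) • E)
    (fun j => (phi ((μ / 4 ^ j) • X) * (rad ν * phi ((μ / 4 ^ j) • X) * rad ν)).trace)
    (fun j => hcd _ (h4 j))
  have hw := wM_sq_le p0 p1 ((1 / 2 : ℝ) • E)
  have hw1 : ∀ W : Matrix ρ ρ ℝ, (((1 / 2 : ℝ) • E)ᵀ * W * ((1 / 2 : ℝ) • E)).trace
      = (1 / 4) * (E * W * E).trace := by
    intro W
    rw [transpose_smul, hE, Matrix.mul_smul, Matrix.smul_mul, Matrix.smul_mul, smul_smul,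
      trace_smul, smul_eq_mul]
    norm_num
  have hw2 : ∀ W : Matrix ρ ρ ℝ, (((1 / 2 : ℝ) • E) * W * ((1 / 2 : ℝ) • E)ᵀ).trace
      = (1 / 4) * (E * W * E).trace := by
    intro W
    rw [transpose_smul, hE, Matrix.mul_smul, Matrix.smul_mul, Matrix.smul_mul, smul_smul,
      trace_smul, smul_eq_mul]
    norm_num
  have hw3 : ∀ B : Matrix ρ ν ℝ, (E * (B * Bᵀ) * E).trace = (Bᵀ * (E * E) * B).trace := by
    intro B
    rw [show E * (B * Bᵀ) * E = (E * B) * (Bᵀ * E) by simp only [Matrix.mul_assoc],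
      trace_mul_comm]
    simp only [Matrix.mul_assoc]
  rw [hw1, hw2, hW0, hW1, hw3, hw3, ← hW0, ← hW1] at hw
  -- one level
  have hl : ∀ j ∈ range (J + 1),
      (μ / 4 ^ j)⁻¹ * GX ((μ / 4 ^ j) • X)
        + (1 / 2) * ((μ / 4 ^ j)⁻¹
          * (phi ((μ / 4 ^ j) • X) * (rad ν * phi ((μ / 4 ^ j) • X) * rad ν)).trace)
      ≤ (1 / 2) * ((μ / 4 ^ j)⁻¹ * GX ((μ / 4 ^ j) • Z₀))
        + (1 / 2) * ((μ / 4 ^ j)⁻¹ * GX ((μ / 4 ^ j) • Z₁))
        + (|2 * (((1 / 2 : ℝ) • E)ᵀ * (dY W0 W1 - gL (μ / 4 ^ j) W0 W1)).trace|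
          + (1 / 2) * (Gm₀.trace + Gm₁.trace)) := by
    intro j _
    have ht := h4 j
    set t := μ / 4 ^ j with htd
    have hi : 0 ≤ t⁻¹ := inv_nonneg.mpr ht.le
    have r1 := GX_pinch (r := rad ν) rad_symm rad_sq (smul_psd hX ht.le)
    have e1 : t • X + rad ν * (t • X) * rad ν = bd (t • (B₀ᵀ * B₀)) (t • (B₁ᵀ * B₁)) := by
      rw [Matrix.mul_smul, Matrix.smul_mul, ← smul_add, hXd, pX_pinch, bd, bd, fromBlocks_smul,
        smul_zero]
    have hx0 : (t • (B₀ᵀ * B₀)).PosSemidef := smul_psd (psd_transpose_mul B₀) ht.le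
    have hx1 : (t • (B₁ᵀ * B₁)).PosSemidef := smul_psd (psd_transpose_mul B₁) ht.le
    have e2 : GX (bd (t • (B₀ᵀ * B₀)) (t • (B₁ᵀ * B₁)))
        = GX (t • (B₀ᵀ * B₀)) + GX (t • (B₁ᵀ * B₁)) := by
      rw [GX, GX, GX, ld_bd hx0 hx1, trace_bd]
      ring
    rw [e1, e2] at r1
    have r2 := tan_child B₀ E hZ₀ hp₀ hm₀ e₀ ht
    have r3 := tan_child B₁ (-E) hZ₁ hp₁ hm₁ e₁' ht
    have e3 : (E * hP (t • W0)).trace + ((-E) * hP (t • W1)).trace
        = 2 * (2 * (((1 / 2 : ℝ) • E)ᵀ * (dY (t • W0) (t • W1)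
          - hdiff (t • W0) (t • W1))).trace) := by
      rw [Matrix.neg_mul, trace_neg, ← sub_eq_add_neg, ← trace_sub, ← Matrix.mul_sub, hP_diff,
        transpose_smul, hE, Matrix.smul_mul, Matrix.mul_smul, trace_smul, trace_smul, smul_eq_mul,
        smul_eq_mul]
      ring
    have e4 := first_eq p0 p1 ht ((1 / 2 : ℝ) • E)
    have e5 := neg_abs_le (2 * (((1 / 2 : ℝ) • E)ᵀ * (dY W0 W1 - gL t W0 W1)).trace)
    have r4 : GX (t • X) + (1 / 2) * (phi (t • X) * (rad ν * phi (t • X) * rad ν)).trace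
        ≤ (1 / 2) * GX (t • Z₀) + (1 / 2) * GX (t • Z₁)
          - 2 * (((1 / 2 : ℝ) • E)ᵀ * (dY (t • W0) (t • W1) - hdiff (t • W0) (t • W1))).trace
          + (1 / 2) * t * (Gm₀.trace + Gm₁.trace) := by
      rw [← hW0] at r2
      rw [← hW1] at r3
      linarith
    have r5 := mul_le_mul_of_nonneg_left r4 hi
    have e6 : t⁻¹ * ((1 / 2) * t * (Gm₀.trace + Gm₁.trace))
        = (1 / 2) * (Gm₀.trace + Gm₁.trace) := by
      field_simp
    rw [mul_add, mul_add, mul_sub, mul_add, e6, e4] at r5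
    linarith
  have hs := sum_le_sum hl
  simp only [sum_add_distrib, ← mul_sum, sum_const, card_range, nsmul_eq_mul] at hs
  have hJ : (0 : ℝ) ≤ 64 * ((J : ℝ) + 1) ^ 3 := by positivity
  have hw4 := mul_le_mul_of_nonneg_left hw hJ
  have f1 : SG μ J X = ∑ j ∈ range (J + 1), (μ / 4 ^ j)⁻¹ * GX ((μ / 4 ^ j) • X) := rfl
  have f2 : SC μ J (rad ν) X = ∑ j ∈ range (J + 1), (μ / 4 ^ j)⁻¹
      * (phi ((μ / 4 ^ j) • X) * (rad ν * phi ((μ / 4 ^ j) • X) * rad ν)).trace := rfl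
  have f3 : SG μ J Z₀ = ∑ j ∈ range (J + 1), (μ / 4 ^ j)⁻¹ * GX ((μ / 4 ^ j) • Z₀) := rfl
  have f4 : SG μ J Z₁ = ∑ j ∈ range (J + 1), (μ / 4 ^ j)⁻¹ * GX ((μ / 4 ^ j) • Z₁) := rfl
  rw [← f1, ← f2, ← f3, ← f4] at hs
  rw [← f2] at hF
  push_cast at hs
  linarith

/-- `S⁻¹` for `S S = T` -/
theorem root_facts {T S : Matrix ρ ρ ℝ} (hT : IsUnit T.det) (hS : S.PosSemidef)
    (h : S * S = T) : S * S⁻¹ = 1 ∧ S⁻¹ * S = 1 ∧ (S⁻¹)ᵀ = S⁻¹ ∧ S⁻¹ * S⁻¹ = T⁻¹ := by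
  have hd : IsUnit S.det := by
    have h1 := isUnit_iff_ne_zero.mp hT
    rw [← h, det_mul] at h1
    exact isUnit_iff_ne_zero.mpr fun h2 => h1 (by rw [h2, mul_zero])
  refine ⟨mul_nonsing_inv _ hd, nonsing_inv_mul _ hd, ?_, ?_⟩
  · rw [transpose_nonsing_inv, psd_isSymm hS]
  · rw [← h, Matrix.mul_inv_rev]

/-- **The node inequality, weight form.** The parent is
`(1/2) (C₀ C₁)ᵀ T (C₀ C₁)`, the halves carry `T + Np - Nm ± M`. -/
theorem node_w {T M Np Nm : Matrix ρ ρ ℝ} (hT : T.PosSemidef) (hd : IsUnit T.det)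
    (hM : Mᵀ = M) (hNp : Np.PosSemidef) (hNm : Nm.PosSemidef) (h0 : (T + Np - Nm + M).PosSemidef)
    (h1 : (T + Np - Nm - M).PosSemidef) (C₀ C₁ : Matrix ρ ν ℝ) {μ : ℝ} (hμ : 0 < μ) (J : ℕ)
    (c0 : μ / 4 ^ J * (C₀ᵀ * T * C₀).trace ≤ 1) (c1 : μ / 4 ^ J * (C₁ᵀ * T * C₁).trace ≤ 1) :
    SG μ J ((1 / 2 : ℝ) • ((fromCols C₀ C₁)ᵀ * T * fromCols C₀ C₁))
        + (1 / 4) * SC μ J (rad ν) ((1 / 2 : ℝ) • ((fromCols C₀ C₁)ᵀ * T * fromCols C₀ C₁))
      ≤ (1 / 2) * (SG μ J (C₀ᵀ * (T + Np - Nm + M) * C₀)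
          + SG μ J (C₁ᵀ * (T + Np - Nm - M) * C₁))
        + 32 * ((J : ℝ) + 1) ^ 3
          * ((C₀ᵀ * (M * T⁻¹ * M) * C₀).trace + (C₁ᵀ * (M * T⁻¹ * M) * C₁).trace)
        + (1 / 2) * ((J : ℝ) + 1) * ((C₀ᵀ * Nm * C₀).trace + (C₁ᵀ * Nm * C₁).trace) := by
  obtain ⟨S, hS, hSS⟩ := exists_sq hT
  obtain ⟨i1, i2, i3, i4⟩ := root_facts hd hS hSS
  have sS := psd_isSymm hS
  set Si := S⁻¹ with hSi
  set E := Si * M * Si with hEd
  have hE : Eᵀ = E := by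
    rw [hEd, transpose_mul, transpose_mul, i3, hM, Matrix.mul_assoc]
  have hSES : S * E * S = M := by
    rw [hEd, show S * (Si * M * Si) * S = (S * Si) * M * (Si * S) by
      simp only [Matrix.mul_assoc], i1, i2, Matrix.one_mul, Matrix.mul_one]
  have hcap : ∀ C : Matrix ρ ν ℝ, μ / 4 ^ J * (Cᵀ * T * C).trace ≤ 1 →
      (1 - (μ / 4 ^ J) • ((S * C) * (S * C)ᵀ)).PosSemidef := by
    intro C hc
    have h := le_trace (smul_psd (psd_mul_transpose (S * C))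
      (show 0 ≤ μ / 4 ^ J by positivity)) (t := 1) (by
        rw [trace_smul, smul_eq_mul, trace_mul_comm, transpose_mul, sS]
        rw [show Cᵀ * S * (S * C) = Cᵀ * T * C by rw [← hSS]; simp only [Matrix.mul_assoc]]
        exact hc)
    rwa [one_smul] at h
  have hB : ∀ C D : Matrix ρ ν ℝ, (S * C)ᵀ * (S * D) = Cᵀ * T * D := by
    intro C D
    rw [transpose_mul, sS, ← hSS]
    simp only [Matrix.mul_assoc]
  have hBE : ∀ C : Matrix ρ ν ℝ, (S * C)ᵀ * E * (S * C) = Cᵀ * M * C := by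
    intro C
    rw [transpose_mul, sS, show Cᵀ * S * E * (S * C) = Cᵀ * (S * E * S) * C by
      simp only [Matrix.mul_assoc], hSES]
  have hBEE : ∀ C : Matrix ρ ν ℝ, (S * C)ᵀ * (E * E) * (S * C) = Cᵀ * (M * T⁻¹ * M) * C := by
    intro C
    rw [transpose_mul, sS, hEd, show Cᵀ * S * (Si * M * Si * (Si * M * Si)) * (S * C)
      = Cᵀ * ((S * Si) * M * (Si * Si) * M * (Si * S)) * C by simp only [Matrix.mul_assoc],
      i1, i2, i4, Matrix.one_mul, Matrix.mul_one]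
  have hconj : ∀ {G : Matrix ρ ρ ℝ}, G.PosSemidef → ∀ C : Matrix ρ ν ℝ,
      (Cᵀ * G * C).PosSemidef := by
    intro G hG C
    have h := psd_conj hG Cᵀ
    rwa [transpose_transpose] at h
  have h := node_B (S * C₀) (S * C₁) hE hμ J (hcap C₀ c0) (hcap C₁ c1) (hconj h0 C₀)
    (hconj h1 C₁) (hconj hNp C₀) (hconj hNp C₁) (hconj hNm C₀) (hconj hNm C₁)
    (by
      rw [hB, hBE]
      simp only [Matrix.mul_add, Matrix.mul_sub, Matrix.add_mul, Matrix.sub_mul]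
      abel)
    (by
      rw [hB, hBE]
      simp only [Matrix.mul_add, Matrix.mul_sub, Matrix.add_mul, Matrix.sub_mul]
      abel)
  have hp : pX (S * C₀) (S * C₁)
      = (1 / 2 : ℝ) • ((fromCols C₀ C₁)ᵀ * T * fromCols C₀ C₁) := by
    rw [pX, ← mul_fromCols, transpose_mul, sS, ← hSS]
    simp only [Matrix.mul_assoc]
  rw [hp, hBEE, hBEE] at h
  exact h

end

end Vale.Agent.P141.H293
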