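import Vale.Agent.P141.H293.StkC

/-!
# P141, line (A): own energy of the moving stack, hub `x3`, path slots, operator caps

Slot `b k` at the middle scale `k`; on the way from the scale `k + 1` to the scale `k` it may be
changed arbitrarily on the affected pieces `Q k x m` (row `x`, cell `m` of scale `k`).
-/

namespace Vale.Agent.P141.H293

open Finset Matrix Vale.Agent.P141.PL Vale.Agent.P141.PL.H103 Vale.Agent.P141.H103
open Vale.Agent.P141.H505 Vale.Agent.P141.H258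
open Vale.Agent.P141.H389 (Wf XW XWs TV SVM SV lvV)
open Vale.Agent.P141.H336 (bsum bsum_mono bsum_nonneg bsum_add bsum_smul bsum_outer bsum_mid)
open Vale.Agent.P075 (Ix val rad GX phi res delt phi_psd res_psd trace_mul_nonneg exists_sq
  psd_isSymm psd_conj psd_transpose_mul psd_mul_transpose)
open Vale.Agent.P141.H585.PairCh (phs dls mv_zero)

noncomputable section

section mat

variable {ρ ν : Type*} [Fintype ρ] [DecidableEq ρ] [Fintype ν] [DecidableEq ν]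

omit [DecidableEq ρ] [DecidableEq ν] in
theorem quad_gram (B : Matrix ρ ν ℝ) (v : ν → ℝ) :
    v ⬝ᵥ ((Bᵀ * B) *ᵥ v) = (B *ᵥ v) ⬝ᵥ (B *ᵥ v) := by
  rw [← mulVec_mulVec, dotProduct_mulVec, vecMul_transpose]

theorem cap_swap {B : Matrix ρ ν ℝ} {t : ℝ} (ht : 0 ≤ t)
    (h : (t • (1 : Matrix ν ν ℝ) - Bᵀ * B).PosSemidef) :
    (t • (1 : Matrix ρ ρ ℝ) - B * Bᵀ).PosSemidef := by
  refine PosSemidef.of_dotProduct_mulVec_nonneg ?_ fun x => ?_
  · rw [IsHermitian, conjTranspose_eq_transpose_of_trivial, transpose_sub, transpose_smul,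
      transpose_one, transpose_mul, transpose_transpose]
  · set v := Bᵀ *ᵥ x with hv
    have h1 := h.dotProduct_mulVec_nonneg v
    rw [star_trivial, sub_mulVec, dotProduct_sub, smul_mulVec, one_mulVec, dotProduct_smul,
      smul_eq_mul, quad_gram] at h1
    have e1 : x ⬝ᵥ (B *ᵥ v) = v ⬝ᵥ v := by
      rw [dotProduct_mulVec, ← mulVec_transpose]
    have e2 : x ⬝ᵥ ((B * Bᵀ) *ᵥ x) = v ⬝ᵥ v := by
      rw [← mulVec_mulVec, e1]
    rw [star_trivial, sub_mulVec, dotProduct_sub, smul_mulVec, one_mulVec, dotProduct_smul,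
      smul_eq_mul, e2]
    have cs : (x ⬝ᵥ (B *ᵥ v)) ^ 2 ≤ (x ⬝ᵥ x) * ((B *ᵥ v) ⬝ᵥ (B *ᵥ v)) := by
      have := Finset.sum_mul_sq_le_sq_mul_sq univ x (B *ᵥ v)
      simpa only [dotProduct, sq] using this
    rw [e1] at cs
    have v0 : 0 ≤ v ⬝ᵥ v := by
      rw [dotProduct]; exact Finset.sum_nonneg fun i _ => mul_self_nonneg _
    have x0 : 0 ≤ x ⬝ᵥ x := by
      rw [dotProduct]; exact Finset.sum_nonneg fun i _ => mul_self_nonneg _
    by_contra hc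
    push Not at hc
    have v1 : 0 < v ⬝ᵥ v := by
      have := mul_nonneg ht x0
      linarith
    have h2 := mul_le_mul_of_nonneg_left (show (B *ᵥ v) ⬝ᵥ (B *ᵥ v) ≤ t * (v ⬝ᵥ v) by linarith) x0
    nlinarith

/-- **The node inequality, weight form, operator caps.** -/
theorem node_w2 {T M Np Nm : Matrix ρ ρ ℝ} (hT : T.PosSemidef) (hd : IsUnit T.det)
    (hM : Mᵀ = M) (hNp : Np.PosSemidef) (hNm : Nm.PosSemidef) (h0 : (T + Np - Nm + M).PosSemidef)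
    (h1 : (T + Np - Nm - M).PosSemidef) (C₀ C₁ : Matrix ρ ν ℝ) {μ : ℝ} (hμ : 0 < μ) (J : ℕ)
    (c0 : (1 - (μ / 4 ^ J) • (C₀ᵀ * T * C₀)).PosSemidef)
    (c1 : (1 - (μ / 4 ^ J) • (C₁ᵀ * T * C₁)).PosSemidef) :
    SG μ J ((1 / 2 : ℝ) • ((fromCols C₀ C₁)ᵀ * T * fromCols C₀ C₁))
        + (1 / 4) * SC μ J (rad ν) ((1 / 2 : ℝ) • ((fromCols C₀ C₁)ᵀ * T * fromCols C₀ C₁))
      ≤ (1 / 2) * (SG μ J (C₀ᵀ * (T + Np - Nm + M) * C₀)
          + SG μ J (C₁ᵀ * (T + Np - Nm - M) * C₁))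
        + 32 * ((J : ℝ) + 1) ^ 3
          * ((C₀ᵀ * (M * T⁻¹ * M) * C₀).trace + (C₁ᵀ * (M * T⁻¹ * M) * C₁).trace)
        + (1 / 2) * ((J : ℝ) + 1) * ((C₀ᵀ * Nm * C₀).trace + (C₁ᵀ * Nm * C₁).trace) := by
  obtain ⟨S, hS, hSS⟩ := exists_sq hT
  obtain ⟨i1, i2, i3, i4⟩ := root_facts hd hS hSS
  have sS := psd_isSymm hS
  set Si := S⁻¹ with hSi
  set E := Si * M * Si with hEd
  have hE : Eᵀ = E := by
    rw [hEd, transpose_mul, transpose_mul, i3, hM, Matrix.mul_assoc]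
  have hSES : S * E * S = M := by
    rw [hEd, show S * (Si * M * Si) * S = (S * Si) * M * (Si * S) by
      simp only [Matrix.mul_assoc], i1, i2, Matrix.one_mul, Matrix.mul_one]
  have hB : ∀ C D : Matrix ρ ν ℝ, (S * C)ᵀ * (S * D) = Cᵀ * T * D := by
    intro C D
    rw [transpose_mul, sS, ← hSS]
    simp only [Matrix.mul_assoc]
  have hcap : ∀ C : Matrix ρ ν ℝ, (1 - (μ / 4 ^ J) • (Cᵀ * T * C)).PosSemidef →
      (1 - (μ / 4 ^ J) • ((S * C) * (S * C)ᵀ)).PosSemidef := by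
    intro C hc
    have hp : (0 : ℝ) < μ / 4 ^ J := by positivity
    have h2 : ((μ / 4 ^ J)⁻¹ • (1 : Matrix ν ν ℝ) - (S * C)ᵀ * (S * C)).PosSemidef := by
      have h3 := hc.smul (inv_nonneg.2 hp.le)
      rwa [smul_sub, smul_smul, inv_mul_cancel₀ hp.ne', one_smul, ← hB] at h3
    have h4 := (cap_swap (inv_nonneg.2 hp.le) h2).smul hp.le
    rwa [smul_sub, smul_smul, mul_inv_cancel₀ hp.ne', one_smul] at h4
  have hBE : ∀ C : Matrix ρ ν ℝ, (S * C)ᵀ * E * (S * C) = Cᵀ * M * C := by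
    intro C
    rw [transpose_mul, sS, show Cᵀ * S * E * (S * C) = Cᵀ * (S * E * S) * C by
      simp only [Matrix.mul_assoc], hSES]
  have hBEE : ∀ C : Matrix ρ ν ℝ, (S * C)ᵀ * (E * E) * (S * C) = Cᵀ * (M * T⁻¹ * M) * C := by
    intro C
    rw [transpose_mul, sS, hEd, show Cᵀ * S * (Si * M * Si * (Si * M * Si)) * (S * C)
      = Cᵀ * ((S * Si) * M * (Si * Si) * M * (Si * S)) * C by simp only [Matrix.mul_assoc],
      i1, i2, i4, Matrix.one_mul, Matrix.mul_one]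
  have hconj : ∀ {G : Matrix ρ ρ ℝ}, G.PosSemidef → ∀ C : Matrix ρ ν ℝ,
      (Cᵀ * G * C).PosSemidef := by
    intro G hG C
    have h := psd_conj hG Cᵀ
    rwa [transpose_transpose] at h
  have h := node_B (S * C₀) (S * C₁) hE hμ J (hcap C₀ c0) (hcap C₁ c1) (hconj h0 C₀)
    (hconj h1 C₁) (hconj hNp C₀) (hconj hNp C₁) (hconj hNm C₀) (hconj hNm C₁)
    (by
      rw [hB, hBE]
      simp only [Matrix.mul_add, Matrix.mul_sub, Matrix.add_mul, Matrix.sub_mul]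
      abel)
    (by
      rw [hB, hBE]
      simp only [Matrix.mul_add, Matrix.mul_sub, Matrix.add_mul, Matrix.sub_mul]
      abel)
  have hp : pX (S * C₀) (S * C₁)
      = (1 / 2 : ℝ) • ((fromCols C₀ C₁)ᵀ * T * fromCols C₀ C₁) := by
    rw [pX, ← mul_fromCols, transpose_mul, sS, ← hSS]
    simp only [Matrix.mul_assoc]
  rw [hp, hBEE, hBEE] at h
  exact h

omit [DecidableEq ρ] [Fintype ν] in
/-- the halves of a capped matrix -/
theorem cap_blocks {C₀ C₁ : Matrix ρ ν ℝ} {T : Matrix ρ ρ ℝ} {t : ℝ}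
    (h : (1 - t • (2 : ℝ) • ((1 / 2 : ℝ) • ((fromCols C₀ C₁)ᵀ * T * fromCols C₀ C₁))
      : Matrix (ν ⊕ ν) (ν ⊕ ν) ℝ).PosSemidef) :
    (1 - t • (C₀ᵀ * T * C₀)).PosSemidef ∧ (1 - t • (C₁ᵀ * T * C₁)).PosSemidef := by
  rw [smul_smul (2 : ℝ), show (2 : ℝ) * (1 / 2) = 1 by norm_num, one_smul] at h
  have e : ((fromCols C₀ C₁)ᵀ * T * fromCols C₀ C₁ : Matrix (ν ⊕ ν) (ν ⊕ ν) ℝ)
      = fromBlocks (C₀ᵀ * T * C₀) (C₀ᵀ * T * C₁) (C₁ᵀ * T * C₀) (C₁ᵀ * T * C₁) := by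
    rw [transpose_fromCols, Matrix.fromRows_mul, fromRows_mul_fromCols]
  rw [e] at h
  constructor
  · have h1 := h.submatrix (Sum.inl : ν → ν ⊕ ν)
    have e1 : (1 - t • fromBlocks (C₀ᵀ * T * C₀) (C₀ᵀ * T * C₁) (C₁ᵀ * T * C₀) (C₁ᵀ * T * C₁)
        : Matrix (ν ⊕ ν) (ν ⊕ ν) ℝ).submatrix Sum.inl Sum.inl = 1 - t • (C₀ᵀ * T * C₀) := by
      ext i j
      simp [Matrix.one_apply, Sum.inl.injEq]
    rwa [e1] at h1
  · have h1 := h.submatrix (Sum.inr : ν → ν ⊕ ν)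
    have e1 : (1 - t • fromBlocks (C₀ᵀ * T * C₀) (C₀ᵀ * T * C₁) (C₁ᵀ * T * C₀) (C₁ᵀ * T * C₁)
        : Matrix (ν ⊕ ν) (ν ⊕ ν) ℝ).submatrix Sum.inr Sum.inr = 1 - t • (C₁ᵀ * T * C₁) := by
      ext i j
      simp [Matrix.one_apply, Sum.inr.injEq]
    rwa [e1] at h1

/-- the energy is monotone -/
theorem SG_mono {X Y : Matrix ν ν ℝ} (hX : X.PosSemidef) (hY : Y.PosSemidef) {μ : ℝ}
    (hμ : 0 < μ) (J : ℕ) : SG μ J X ≤ SG μ J (X + Y) := by
  unfold SG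
  refine sum_le_sum fun j _ => ?_
  have hj : 0 < μ / 4 ^ j := by positivity
  refine mul_le_mul_of_nonneg_left ?_ (inv_nonneg.2 hj.le)
  have h := GX_tangent (smul_psd hX hj.le) (smul_psd (hX.add hY) hj.le)
  have e : (μ / 4 ^ j) • (X + Y) - (μ / 4 ^ j) • X = (μ / 4 ^ j) • Y := by module
  rw [e] at h
  have h2 := trace_mul_nonneg (phi_psd (smul_psd hX hj.le)) (smul_psd hY hj.le)
  linarith

end mat

variable {κ : Type*} [Fintype κ] [DecidableEq κ]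

/-- **The middle step, arrays, operator cap of the parent.** -/
theorem mid_QW2 (a k : ℕ) (b : ℤ → ℤ → κ → ℝ) {T M Np Nm : ℤ → Matrix κ κ ℝ}
    (hT : ∀ x, (T x).PosSemidef) (hd : ∀ x, IsUnit (T x).det) (hM : ∀ x, (M x)ᵀ = M x)
    (hNp : ∀ x, (Np x).PosSemidef) (hNm : ∀ x, (Nm x).PosSemidef)
    (h0 : ∀ x, (T x + Np x - Nm x + M x).PosSemidef)
    (h1 : ∀ x, (T x + Np x - Nm x - M x).PosSemidef) (n m : ℤ) {μ : ℝ} (hμ : 0 < μ) (J : ℕ)
    (cap : (1 - (μ / 4 ^ J) • (2 : ℝ) • QW a (k + 1) b T n m).PosSemidef) :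
    SG μ J (QW a (k + 1) b T n m)
        + (1 / 4) * SC (n := Ix k ⊕ Ix k) μ J (rad (Ix k)) (QW a (k + 1) b T n m)
      ≤ (1 / 2) * (SG μ J (QW a k b (fun x => T x + Np x - Nm x + M x) n (2 * m))
          + SG μ J (QW a k b (fun x => T x + Np x - Nm x - M x) n (2 * m + 1)))
        + 64 * ((J : ℝ) + 1) ^ 3
          * (QW a (k + 1) b (fun x => M x * (T x)⁻¹ * M x) n m).trace
        + ((J : ℝ) + 1) * (QW a (k + 1) b Nm n m).trace := by
  have f0 : Tw a (fun x => T x + Np x - Nm x + M x) n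
      = Tw a T n + Tw a Np n - Tw a Nm n + Tw a M n := by
    simp only [Tw]
    rw [← blockDiagonal_add, ← blockDiagonal_sub, ← blockDiagonal_add]
    rfl
  have f1 : Tw a (fun x => T x + Np x - Nm x - M x) n
      = Tw a T n + Tw a Np n - Tw a Nm n - Tw a M n := by
    simp only [Tw]
    rw [← blockDiagonal_add, ← blockDiagonal_sub, ← blockDiagonal_sub]
    rfl
  have f2 : Tw a (fun x => M x * (T x)⁻¹ * M x) n
      = Tw a M n * (Tw a T n)⁻¹ * Tw a M n := by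
    simp only [Tw]
    rw [bdg_inv (fun i => hd _), ← blockDiagonal_mul, ← blockDiagonal_mul]
  have g0 : (Tw a T n + Tw a Np n - Tw a Nm n + Tw a M n).PosSemidef := by
    rw [← f0]; exact bdg_psd fun i => h0 _
  have g1 : (Tw a T n + Tw a Np n - Tw a Nm n - Tw a M n).PosSemidef := by
    rw [← f1]; exact bdg_psd fun i => h1 _
  have sM : (Tw a M n)ᵀ = Tw a M n := by
    simp only [Tw]
    rw [blockDiagonal_transpose]
    congr 1
    funext i
    exact hM _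
  have cap' : (1 - (μ / 4 ^ J) • (2 : ℝ) • ((1 / 2 : ℝ)
      • ((fromCols (Cw a k b n (2 * m)) (Cw a k b n (2 * m + 1)))ᵀ * Tw a T n
        * fromCols (Cw a k b n (2 * m)) (Cw a k b n (2 * m + 1))))
      : Matrix (Ix k ⊕ Ix k) (Ix k ⊕ Ix k) ℝ).PosSemidef := by
    rw [← QW_succ]; exact cap
  obtain ⟨c0, c1⟩ := cap_blocks cap'
  have h := node_w2 (T := Tw a T n) (M := Tw a M n) (Np := Tw a Np n) (Nm := Tw a Nm n)
    (bdg_psd fun i => hT _) (bdg_unit fun i => hd _) sM (bdg_psd fun i => hNp _)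
    (bdg_psd fun i => hNm _) g0 g1 (Cw a k b n (2 * m)) (Cw a k b n (2 * m + 1)) hμ J c0 c1
  rw [← f0, ← f1, ← f2] at h
  simp only [← QW_eq] at h
  rw [← QW_succ, tr_QW_succ, tr_QW_succ] at h
  refine h.trans (le_of_eq ?_)
  ring

/-! ### Change of the slot -/

omit [Fintype κ] [DecidableEq κ] in
theorem val_mem (k : ℕ) (m : ℤ) (j : Ix k) : (2 : ℤ) ^ k * m + ((val k j : ℕ) : ℤ) ∈ iv k m := by
  have h1 := P075.val_lt k j
  rw [iv, mem_Ico]
  constructor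
  · linarith [Int.natCast_nonneg (val k j)]
  · have : ((val k j : ℕ) : ℤ) < 2 ^ k := by exact_mod_cast h1
    linarith

omit [DecidableEq κ] in
theorem QW_congr {a k : ℕ} {b b' : ℤ → ℤ → κ → ℝ} {n m : ℤ} {T : ℤ → Matrix κ κ ℝ}
    (h : ∀ x ∈ iv a n, ∀ y ∈ iv k m, b x y = b' x y) : QW a k b T n m = QW a k b' T n m := by
  ext j j'
  rw [QW, QW]
  congr 1
  refine Finset.sum_congr rfl fun x hx => ?_
  rw [h x hx _ (val_mem k m j), h x hx _ (val_mem k m j')]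

open Classical in
/-- the part of the slot at the scale `k + 1` which is changed at the scale `k` -/
def af (Q : ℕ → ℤ → ℤ → Prop) (b : ℕ → ℤ → ℤ → κ → ℝ) (k : ℕ) (x y : ℤ) : κ → ℝ :=
  if Q k x (ix k y) then b (k + 1) x y else 0

omit [DecidableEq κ] in
open Classical in
/-- the price of a change of the slot -/
theorem SG_chg {Q : ℕ → ℤ → ℤ → Prop} {b : ℕ → ℤ → ℤ → κ → ℝ} {k : ℕ} {m : ℤ}
    (hQ : ∀ x, ¬ Q k x m → ∀ y ∈ iv k m, b k x y = b (k + 1) x y) {T : ℤ → Matrix κ κ ℝ}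
    (hT : ∀ x, (T x).PosSemidef) {μ : ℝ} (hμ : 0 < μ) (J a : ℕ) (n : ℤ) :
    SG μ J (QW a k (b (k + 1)) T n m) ≤ SG μ J (QW a k (b k) T n m)
      + ((J : ℝ) + 1) * (QW a k (af Q b k) T n m).trace := by
  set com : ℤ → ℤ → κ → ℝ := fun x y => if Q k x m then 0 else b (k + 1) x y with hcom
  set nw : ℤ → ℤ → κ → ℝ := fun x y => if Q k x m then b k x y else 0 with hnw
  have e1 : QW a k (b (k + 1)) T n m = QW a k com T n m + QW a k (af Q b k) T n m := by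
    ext j j'
    rw [Matrix.add_apply, QW, QW, QW, ← mul_add, ← Finset.sum_add_distrib]
    congr 1
    refine Finset.sum_congr rfl fun x _ => ?_
    have i1 := mem_iv.1 (val_mem k m j)
    have i2 := mem_iv.1 (val_mem k m j')
    by_cases hx : Q k x m
    · simp only [hcom, af, i1, i2, if_pos hx, zero_dotProduct, zero_add]
    · simp only [hcom, af, i1, i2, if_neg hx, zero_dotProduct, add_zero]
  have e2 : QW a k (b k) T n m = QW a k com T n m + QW a k nw T n m := by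
    ext j j'
    rw [Matrix.add_apply, QW, QW, QW, ← mul_add, ← Finset.sum_add_distrib]
    congr 1
    refine Finset.sum_congr rfl fun x _ => ?_
    by_cases hx : Q k x m
    · simp only [hcom, hnw, if_pos hx, zero_dotProduct, zero_add]
    · simp only [hcom, hnw, if_neg hx, zero_dotProduct, add_zero]
      rw [hQ x hx _ (val_mem k m j), hQ x hx _ (val_mem k m j')]
  have p1 : (QW a k com T n m).PosSemidef := QW_psd hT n m
  have p2 : (QW a k (af Q b k) T n m).PosSemidef := QW_psd hT n m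
  have p3 : (QW a k nw T n m).PosSemidef := QW_psd hT n m
  have h1 := SG_add_le p1 p2 hμ J
  have h2 := SG_mono p1 p3 hμ J
  rw [← e1] at h1
  rw [← e2] at h2
  linarith

/-- error of the middle step -/
def pP (J : ℕ) (W M Nm : ℤ → ℕ → ℤ → Matrix κ κ ℝ) (Q : ℕ → ℤ → ℤ → Prop)
    (b : ℕ → ℤ → ℤ → κ → ℝ) (k a : ℕ) (n m : ℤ) : ℝ :=
  64 * ((J : ℝ) + 1) ^ 3 * (QW a (k + 1) (b (k + 1))
      (fun x => M x (k + 1) m * (W x (k + 1) m)⁻¹ * M x (k + 1) m) n m).trace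
    + ((J : ℝ) + 1) * (QW a (k + 1) (b (k + 1)) (fun x => Nm x (k + 1) m) n m).trace
    + (1 / 2) * ((J : ℝ) + 1)
      * ((QW a k (af Q b k) (fun x => W x k (2 * m)) n (2 * m)).trace
        + (QW a k (af Q b k) (fun x => W x k (2 * m + 1)) n (2 * m + 1)).trace)

/-- **The middle step, path slot.** -/
theorem mid_P {k₀ N : ℕ} {W Nn M Nm : ℤ → ℕ → ℤ → Matrix κ κ ℝ} (h : Wf N W Nn M Nm)
    {Q : ℕ → ℤ → ℤ → Prop} {b : ℕ → ℤ → ℤ → κ → ℝ}
    (hQ : ∀ k x m, k₀ ≤ k → k < N → ¬ Q k x m → ∀ y ∈ iv k m, b k x y = b (k + 1) x y)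
    {μ : ℝ} (hμ : 0 < μ) (J : ℕ) {k a : ℕ} (hk₀ : k₀ ≤ k) (hk : k < N) (n m : ℤ)
    (cap : (1 - (μ / 4 ^ J) • (2 : ℝ) • XW (b (k + 1)) W (k + 1) a n m).PosSemidef) :
    SG μ J (XW (b (k + 1)) W (k + 1) a n m)
        + (1 / 4) * SC μ J (rad (Ix k)) (XWs (b (k + 1)) W k a n m)
      ≤ (1 / 2) * (SG μ J (XW (b k) W k a n (2 * m)) + SG μ J (XW (b k) W k a n (2 * m + 1)))
        + pP J W M Nm Q b k a n m := by
  have pW : ∀ x k m, (W x k m).PosSemidef := fun x k m => (h.pd x k m).posSemidef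
  have w0 : ∀ x, W x (k + 1) m + (Nn x (k + 1) m + Nm x (k + 1) m) - Nm x (k + 1) m
      + M x (k + 1) m = W x k (2 * m) := by
    intro x; rw [h.left x k m hk]; abel
  have w1 : ∀ x, W x (k + 1) m + (Nn x (k + 1) m + Nm x (k + 1) m) - Nm x (k + 1) m
      - M x (k + 1) m = W x k (2 * m + 1) := by
    intro x; rw [h.right x k m hk]; abel
  have key := mid_QW2 a k (b (k + 1)) (T := fun x => W x (k + 1) m)
    (M := fun x => M x (k + 1) m) (Np := fun x => Nn x (k + 1) m + Nm x (k + 1) m)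
    (Nm := fun x => Nm x (k + 1) m) (fun x => pW x _ _) (fun x => unit_det (h.pd x _ _))
    (fun x => h.sM x _ _) (fun x => h.pN x _ _) (fun x => h.pNm x _ _)
    (fun x => by rw [w0]; exact pW x _ _) (fun x => by rw [w1]; exact pW x _ _) n m hμ J cap
  simp only [w0, w1] at key
  have s0 := SG_chg (fun x => hQ k x (2 * m) hk₀ hk) (T := fun x => W x k (2 * m))
    (fun x => pW x _ _) hμ J a n
  have s1 := SG_chg (fun x => hQ k x (2 * m + 1) hk₀ hk) (T := fun x => W x k (2 * m + 1))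
    (fun x => pW x _ _) hμ J a n
  have f1 : SG μ J (XW (b (k + 1)) W (k + 1) a n m)
      = SG μ J (QW a (k + 1) (b (k + 1)) (fun x => W x (k + 1) m) n m) := rfl
  have f2 : SC μ J (rad (Ix k)) (XWs (b (k + 1)) W k a n m)
      = SC (n := Ix k ⊕ Ix k) μ J (rad (Ix k))
        (QW a (k + 1) (b (k + 1)) (fun x => W x (k + 1) m) n m) := rfl
  have f3 : SG μ J (XW (b k) W k a n (2 * m))
      = SG μ J (QW a k (b k) (fun x => W x k (2 * m)) n (2 * m)) := rfl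
  have f4 : SG μ J (XW (b k) W k a n (2 * m + 1))
      = SG μ J (QW a k (b k) (fun x => W x k (2 * m + 1)) n (2 * m + 1)) := rfl
  rw [f1, f2, f3, f4, pP]
  linarith

/-- the error of one scale, over the plane -/
def cP (J N : ℕ) (T S : ℤ) (W M Nm : ℤ → ℕ → ℤ → Matrix κ κ ℝ) (Q : ℕ → ℤ → ℤ → Prop)
    (b : ℕ → ℤ → ℤ → κ → ℝ) (k : ℕ) : ℝ :=
  64 * ((J : ℝ) + 1) ^ 3 * ms N T S (b (k + 1))
      (fun x m => M x (k + 1) m * (W x (k + 1) m)⁻¹ * M x (k + 1) m) (k + 1)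
    + ((J : ℝ) + 1) * ms N T S (b (k + 1)) (fun x m => Nm x (k + 1) m) (k + 1)
    + ((J : ℝ) + 1) * ms N T S (af Q b k) (fun x m => W x k m) k

theorem pP_sum {N a k : ℕ} (ha : a ≤ N) (hk : k < N) (J : ℕ) (T S : ℤ)
    (W M Nm : ℤ → ℕ → ℤ → Matrix κ κ ℝ) (Q : ℕ → ℤ → ℤ → Prop) (b : ℕ → ℤ → ℤ → κ → ℝ) :
    (2 : ℝ) ^ a * 2 ^ (k + 1) * ∑ m ∈ iv (N - (k + 1)) S, ∑ n ∈ iv (N - a) T,
      pP J W M Nm Q b k a n m = cP J N T S W M Nm Q b k := by
  have h1 := bsum_tr ha (show k + 1 ≤ N from hk) T S (b (k + 1))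
    (fun x m => M x (k + 1) m * (W x (k + 1) m)⁻¹ * M x (k + 1) m)
  have h2 := bsum_tr ha (show k + 1 ≤ N from hk) T S (b (k + 1)) (fun x m => Nm x (k + 1) m)
  have h3 := two_mid ha hk T S (af Q b k) (fun x m => W x k m)
  unfold cP
  rw [← h1, ← h2]
  have h5 : ms N T S (af Q b k) (fun x m => W x k m) k
      = (1 / 2) * ((2 : ℝ) ^ a * 2 ^ (k + 1) * ∑ m ∈ iv (N - (k + 1)) S, ∑ n ∈ iv (N - a) T,
      ((QW a k (af Q b k) (fun x => W x k (2 * m)) n (2 * m)).trace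
        + (QW a k (af Q b k) (fun x => W x k (2 * m + 1)) n (2 * m + 1)).trace)) := by
    linarith
  rw [h5]
  unfold pP
  simp only [Finset.sum_add_distrib, ← Finset.mul_sum]
  ring

theorem cP_nonneg {N : ℕ} {W Nn M Nm : ℤ → ℕ → ℤ → Matrix κ κ ℝ} (h : Wf N W Nn M Nm)
    (Q : ℕ → ℤ → ℤ → Prop) (b : ℕ → ℤ → ℤ → κ → ℝ) (J : ℕ) (T S : ℤ) (k : ℕ) :
    0 ≤ cP J N T S W M Nm Q b k := by
  have h1 : 0 ≤ ms N T S (b (k + 1))
      (fun x m => M x (k + 1) m * (W x (k + 1) m)⁻¹ * M x (k + 1) m) (k + 1) :=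
    Finset.sum_nonneg fun x _ => Finset.sum_nonneg fun y _ =>
      H389.quad_nonneg (h.pd x _ _) (h.sM x _ _) _
  have h2 := ms_nonneg N T S (b (k + 1)) (k + 1) fun x m => h.pNm x (k + 1) m
  have h3 := ms_nonneg N T S (af Q b k) k fun x m => (h.pd x k m).posSemidef
  unfold cP
  positivity

end

end Vale.Agent.P141.H293
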