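import Vale.Agent.P141.H293.NodeO
import Vale.Agent.P141.H258.Wt

/-!
# P141, line (A): the own energy of the moving slot, hub `x3`, arrays

`QW a k b T n m`: Gram matrix in the middle variable of the slot `b` with the weight `T x` on the
row `x`. `mid_QW`: the middle step, all levels, weights `T x + Np x - Nm x ± M x` on the two halves.
-/

namespace Vale.Agent.P141.H293

open Finset Matrix Vale.Agent.P141.PL Vale.Agent.P141.PL.H103 Vale.Agent.P141.H103
open Vale.Agent.P141.H505 Vale.Agent.P141.H258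
open Vale.Agent.P075 (Ix val rad GX phi exists_sq psd_sq psd_isSymm psd_conj psd_transpose_mul)

noncomputable section

variable {κ : Type*} [Fintype κ] [DecidableEq κ]

/-! ### Block diagonal weights -/

section bdg

variable {o : Type*} [Fintype o] [DecidableEq o]

omit [DecidableEq κ] in
theorem bdg_psd {T : o → Matrix κ κ ℝ} (h : ∀ i, (T i).PosSemidef) :
    (blockDiagonal T).PosSemidef := by
  choose B hB hBB using fun i => exists_sq (h i)
  have e : blockDiagonal T = blockDiagonal B * blockDiagonal B := by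
    rw [← blockDiagonal_mul]
    congr 1
    funext i
    rw [hBB]
  rw [e]
  refine psd_sq ?_
  rw [blockDiagonal_transpose]
  congr 1
  funext i
  exact psd_isSymm (hB i)

theorem bdg_inv {T : o → Matrix κ κ ℝ} (h : ∀ i, IsUnit (T i).det) :
    (blockDiagonal T)⁻¹ = blockDiagonal fun i => (T i)⁻¹ := by
  refine Matrix.inv_eq_right_inv ?_
  rw [← blockDiagonal_mul]
  have e : (fun i => T i * (T i)⁻¹) = (1 : o → Matrix κ κ ℝ) := by
    funext i
    rw [mul_nonsing_inv _ (h i)]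
    rfl
  rw [e, blockDiagonal_one]

theorem bdg_unit {T : o → Matrix κ κ ℝ} (h : ∀ i, IsUnit (T i).det) :
    IsUnit (blockDiagonal T).det := by
  rw [det_blockDiagonal]
  exact isUnit_iff_ne_zero.mpr (Finset.prod_ne_zero_iff.mpr fun i _ =>
    isUnit_iff_ne_zero.mp (h i))

end bdg

/-! ### The slot as a matrix -/

/-- rows of the slot -/
def Cw (a k : ℕ) (b : ℤ → ℤ → κ → ℝ) (n m : ℤ) : Matrix (κ × Ix a) (Ix k) ℝ :=
  fun p j => Real.sqrt (((2 : ℝ) ^ a * 2 ^ k)⁻¹)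
    * b (2 ^ a * n + val a p.2) (2 ^ k * m + val k j) p.1

/-- the weights as one matrix -/
def Tw (a : ℕ) (T : ℤ → Matrix κ κ ℝ) (n : ℤ) : Matrix (κ × Ix a) (κ × Ix a) ℝ :=
  blockDiagonal fun i : Ix a => T (2 ^ a * n + val a i)

theorem gram_entry (a k : ℕ) (b : ℤ → ℤ → κ → ℝ) (T : ℤ → Matrix κ κ ℝ) (n m m' : ℤ)
    (j j' : Ix k) : ((Cw a k b n m)ᵀ * Tw a T n * Cw a k b n m') j j'
      = ((2 : ℝ) ^ a * 2 ^ k)⁻¹ * ∑ x ∈ iv a n,
        b x (2 ^ k * m + val k j) ⬝ᵥ T x *ᵥ b x (2 ^ k * m' + val k j') := by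
  have hs : Real.sqrt (((2 : ℝ) ^ a * 2 ^ k)⁻¹) * Real.sqrt (((2 : ℝ) ^ a * 2 ^ k)⁻¹)
      = ((2 : ℝ) ^ a * 2 ^ k)⁻¹ := Real.mul_self_sqrt (by positivity)
  rw [H588.sum_iv, Matrix.mul_assoc, Matrix.mul_apply]
  simp only [transpose_apply, Matrix.mul_apply, Fintype.sum_prod_type, Tw, blockDiagonal_apply,
    Cw, ite_mul, zero_mul, Finset.sum_ite_eq, Finset.mem_univ, if_true, dotProduct, mulVec]
  rw [Finset.sum_comm, Finset.mul_sum]
  refine Finset.sum_congr rfl fun i _ => ?_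
  rw [Finset.mul_sum]
  refine Finset.sum_congr rfl fun l _ => ?_
  generalize Real.sqrt (((2 : ℝ) ^ a * 2 ^ k)⁻¹) = s at hs ⊢
  rw [← hs]
  simp only [Finset.mul_sum]
  refine Finset.sum_congr rfl fun l' _ => ?_
  ring

theorem QW_eq (a k : ℕ) (b : ℤ → ℤ → κ → ℝ) (T : ℤ → Matrix κ κ ℝ) (n m : ℤ) :
    QW a k b T n m = (Cw a k b n m)ᵀ * Tw a T n * Cw a k b n m := by
  ext j j'
  rw [gram_entry, QW]

/-- the parent -/
theorem QW_succ (a k : ℕ) (b : ℤ → ℤ → κ → ℝ) (T : ℤ → Matrix κ κ ℝ) (n m : ℤ) :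
    QW a (k + 1) b T n m
      = (1 / 2 : ℝ) • ((fromCols (Cw a k b n (2 * m)) (Cw a k b n (2 * m + 1)))ᵀ * Tw a T n
        * fromCols (Cw a k b n (2 * m)) (Cw a k b n (2 * m + 1))) := by
  have hc : ((2 : ℝ) ^ a * 2 ^ (k + 1))⁻¹ = (1 / 2) * ((2 : ℝ) ^ a * 2 ^ k)⁻¹ := by
    rw [show (2 : ℝ) ^ a * 2 ^ (k + 1) = 2 * ((2 : ℝ) ^ a * 2 ^ k) by ring, mul_inv]
    norm_num
  have y0 : ∀ j : Ix k, (2 : ℤ) ^ (k + 1) * m + ((val (k + 1) (Sum.inl j) : ℕ) : ℤ)
      = 2 ^ k * (2 * m) + val k j := by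
    intro j
    have : val (k + 1) (Sum.inl j) = val k j := rfl
    rw [this]; ring
  have y1 : ∀ j : Ix k, (2 : ℤ) ^ (k + 1) * m + ((val (k + 1) (Sum.inr j) : ℕ) : ℤ)
      = 2 ^ k * (2 * m + 1) + val k j := by
    intro j
    have : val (k + 1) (Sum.inr j) = 2 ^ k + val k j := rfl
    rw [this]; push_cast; ring
  have q : ∀ u v : Ix k ⊕ Ix k, QW a (k + 1) b T n m u v
      = ((2 : ℝ) ^ a * 2 ^ (k + 1))⁻¹ * ∑ x ∈ iv a n,
        b x ((2 : ℤ) ^ (k + 1) * m + ((val (k + 1) u : ℕ) : ℤ)) ⬝ᵥ T x *ᵥ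
          b x ((2 : ℤ) ^ (k + 1) * m + ((val (k + 1) v : ℕ) : ℤ)) := fun u v => rfl
  rw [transpose_fromCols, Matrix.fromRows_mul, fromRows_mul_fromCols, fromBlocks_smul]
  ext j j'
  rcases j with j | j <;> rcases j' with j' | j'
  · change QW a (k + 1) b T n m (Sum.inl j) (Sum.inl j') = (1 / 2 : ℝ) * _
    rw [gram_entry, q, hc, mul_assoc]
    congr 2
    refine Finset.sum_congr rfl fun x _ => ?_
    rw [y0, y0]
  · change QW a (k + 1) b T n m (Sum.inl j) (Sum.inr j') = (1 / 2 : ℝ) * _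
    rw [gram_entry, q, hc, mul_assoc]
    congr 2
    refine Finset.sum_congr rfl fun x _ => ?_
    rw [y0, y1]
  · change QW a (k + 1) b T n m (Sum.inr j) (Sum.inl j') = (1 / 2 : ℝ) * _
    rw [gram_entry, q, hc, mul_assoc]
    congr 2
    refine Finset.sum_congr rfl fun x _ => ?_
    rw [y1, y0]
  · change QW a (k + 1) b T n m (Sum.inr j) (Sum.inr j') = (1 / 2 : ℝ) * _
    rw [gram_entry, q, hc, mul_assoc]
    congr 2
    refine Finset.sum_congr rfl fun x _ => ?_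
    rw [y1, y1]

/-- **The middle step of the moving slot, all levels** (hub `x3`, any outer scale). -/
theorem mid_QW (a k : ℕ) (b : ℤ → ℤ → κ → ℝ) {T M Np Nm : ℤ → Matrix κ κ ℝ}
    (hT : ∀ x, (T x).PosSemidef) (hd : ∀ x, IsUnit (T x).det) (hM : ∀ x, (M x)ᵀ = M x)
    (hNp : ∀ x, (Np x).PosSemidef) (hNm : ∀ x, (Nm x).PosSemidef)
    (h0 : ∀ x, (T x + Np x - Nm x + M x).PosSemidef)
    (h1 : ∀ x, (T x + Np x - Nm x - M x).PosSemidef) (n m : ℤ) {μ : ℝ} (hμ : 0 < μ) (J : ℕ)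
    (c0 : μ / 4 ^ J * (QW a k b T n (2 * m)).trace ≤ 1)
    (c1 : μ / 4 ^ J * (QW a k b T n (2 * m + 1)).trace ≤ 1) :
    SG μ J (QW a (k + 1) b T n m)
        + (1 / 4) * SC (n := Ix k ⊕ Ix k) μ J (rad (Ix k)) (QW a (k + 1) b T n m)
      ≤ (1 / 2) * (SG μ J (QW a k b (fun x => T x + Np x - Nm x + M x) n (2 * m))
          + SG μ J (QW a k b (fun x => T x + Np x - Nm x - M x) n (2 * m + 1)))
        + 32 * ((J : ℝ) + 1) ^ 3
          * ((QW a k b (fun x => M x * (T x)⁻¹ * M x) n (2 * m)).trace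
            + (QW a k b (fun x => M x * (T x)⁻¹ * M x) n (2 * m + 1)).trace)
        + (1 / 2) * ((J : ℝ) + 1)
          * ((QW a k b Nm n (2 * m)).trace + (QW a k b Nm n (2 * m + 1)).trace) := by
  have f0 : Tw a (fun x => T x + Np x - Nm x + M x) n
      = Tw a T n + Tw a Np n - Tw a Nm n + Tw a M n := by
    simp only [Tw]
    rw [← blockDiagonal_add, ← blockDiagonal_sub, ← blockDiagonal_add]
    rfl
  have f1 : Tw a (fun x => T x + Np x - Nm x - M x) n
      = Tw a T n + Tw a Np n - Tw a Nm n - Tw a M n := by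
    simp only [Tw]
    rw [← blockDiagonal_add, ← blockDiagonal_sub, ← blockDiagonal_sub]
    rfl
  have f2 : Tw a (fun x => M x * (T x)⁻¹ * M x) n
      = Tw a M n * (Tw a T n)⁻¹ * Tw a M n := by
    simp only [Tw]
    rw [bdg_inv (fun i => hd _), ← blockDiagonal_mul, ← blockDiagonal_mul]
  have g0 : (Tw a T n + Tw a Np n - Tw a Nm n + Tw a M n).PosSemidef := by
    rw [← f0]; exact bdg_psd fun i => h0 _
  have g1 : (Tw a T n + Tw a Np n - Tw a Nm n - Tw a M n).PosSemidef := by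
    rw [← f1]; exact bdg_psd fun i => h1 _
  have sM : (Tw a M n)ᵀ = Tw a M n := by
    simp only [Tw]
    rw [blockDiagonal_transpose]
    congr 1
    funext i
    exact hM _
  have h := node_w (T := Tw a T n) (M := Tw a M n) (Np := Tw a Np n) (Nm := Tw a Nm n)
    (bdg_psd fun i => hT _) (bdg_unit fun i => hd _) sM (bdg_psd fun i => hNp _)
    (bdg_psd fun i => hNm _) g0 g1 (Cw a k b n (2 * m)) (Cw a k b n (2 * m + 1)) hμ J
    (by rw [← QW_eq]; exact c0) (by rw [← QW_eq]; exact c1)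
  rw [← f0, ← f1, ← f2] at h
  simp only [← QW_eq] at h
  rw [← QW_succ] at h
  exact h

end

end Vale.Agent.P141.H293
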