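import Vale.Agent.P141.H293.Own3

/-!
# P141, line (A): the plane energy of a capped family with exact outer means

As `H336.Stk.TV_stack`, hub `x3` (no move in the outer step), with the energy hypotheses only at
the start and as a geometric sum.
-/

namespace Vale.Agent.P141.H293

open Finset Matrix Vale.Agent.P141.PL Vale.Agent.P141.PL.H103 Vale.Agent.P141.H103
open Vale.Agent.P141.H505 Vale.Agent.P141.H258
open Vale.Agent.P141.H389 (Wf XW XWs TV SVM SV lvV SVM_nonneg)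
open Vale.Agent.P141.H336 (bsum bsum_mono bsum_nonneg bsum_add bsum_smul bsum_outer bsum_mid
  phs_step sq_phs_le SG_le SG_nonneg le_SD SD_nonneg geo geo' diag diag_sum)
open Vale.Agent.P075 (Ix val rad GX phi res delt phi_psd res_psd trace_mul_nonneg)
open Vale.Agent.P141.H585.PairCh (phs dls mv mv_zero)

noncomputable section

section gx

variable {n : Type*} [Fintype n] [DecidableEq n]

/-- the static outer step, all levels -/
theorem SG_row {X₀ X₁ : Matrix n n ℝ} (h0 : X₀.PosSemidef) (h1 : X₁.PosSemidef) {μ : ℝ}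
    (hμ : 0 < μ) (J : ℕ) :
    SG μ J ((1 / 2 : ℝ) • (X₀ + X₁)) + (1 / 2) * SD μ J X₀ X₁
      ≤ (1 / 2) * (SG μ J X₀ + SG μ J X₁) := by
  unfold SG SD
  rw [Finset.mul_sum, ← Finset.sum_add_distrib, ← Finset.sum_add_distrib, Finset.mul_sum]
  refine Finset.sum_le_sum fun j _ => ?_
  have hj : 0 < μ / 4 ^ j := by positivity
  have r1 := P075.R.GX_row (smul_psd h0 hj.le) (smul_psd h1 hj.le)
  rw [← smul_add, smul_comm] at r1
  have r2 := mul_le_mul_of_nonneg_left r1 (inv_nonneg.2 hj.le)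
  linarith

end gx

section tv

variable {k₀ N : ℕ} {R S : ℤ} {ι : ℕ → Type*} [∀ k, Fintype (ι k)] [∀ k, DecidableEq (ι k)]
  {μ : ℝ} {J : ℕ} {W : ∀ k, ℕ → ℤ → ℤ → Matrix (ι k) (ι k) ℝ} {γ p : ℕ → ℕ → ℤ → ℤ → ℝ}
  {e : ℕ → ℝ} {H Qm : ℝ}

/-- the telescope on every diagonal -/
theorem own_w (hμ : 0 < μ) (psd : ∀ k a n m, (W k a n m).PosSemidef)
    (out : ∀ k, OutM N k (W k))
    (mid : ∀ k a n m, k₀ ≤ k → k + 1 ≤ a → a ≤ N → SG μ J (W (k + 1) a n m) + γ k a n m
      ≤ (1 / 2) * (SG μ J (W k a n (2 * m)) + SG μ J (W k a n (2 * m + 1))) + p k a n m)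
    (he : ∀ k a, k₀ ≤ k → k ≤ a → a ≤ N →
      (2 : ℝ) ^ a * 2 ^ k * ∑ m ∈ iv (N - k) S, ∑ n ∈ iv (N - a) R, (W k a n m).trace ≤ e k)
    (H0 : 0 ≤ H) (h0 : e k₀ ≤ H)
    (hQm : ∀ r, ∑ k ∈ Ico k₀ (N - r), (2 : ℝ) ^ (k + 1 + r) * 2 ^ (k + 1)
      * ∑ m ∈ iv (N - (k + 1)) S, ∑ n ∈ iv (N - (k + 1 + r)) R, p k (k + 1 + r) n m ≤ Qm)
    (r : ℕ) :
    ∑ k ∈ Ico k₀ (N - r), (1 / 2) * ((2 : ℝ) ^ (k + r + 1) * 2 ^ k * ∑ m ∈ iv (N - k) S,
        ∑ n ∈ iv (N - (k + r + 1)) R, SD μ J (W k (k + r) (2 * n) m) (W k (k + r) (2 * n + 1) m))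
      + ∑ k ∈ Ico k₀ (N - r), (2 : ℝ) ^ (k + 1 + r) * 2 ^ (k + 1)
        * ∑ m ∈ iv (N - (k + 1)) S, ∑ n ∈ iv (N - (k + 1 + r)) R, γ k (k + 1 + r) n m
      ≤ ((J : ℝ) + 1) * H + Qm := by
  have hM0 : 0 ≤ Qm := by
    have := hQm N
    rwa [Nat.sub_self, Ico_eq_empty (by omega), sum_empty] at this
  by_cases hr : k₀ + r ≤ N
  · have key := diag (k₀ := k₀) (N := N)
      (E := fun k a => bsum N R S k a fun n m => SG μ J (W k a n m))
      (G := fun k a => (1 / 2) * bsum N R S k (a + 1) fun n m =>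
        SD μ J (W k a (2 * n) m) (W k a (2 * n + 1) m))
      (G' := fun k a => bsum N R S (k + 1) a fun n m => γ k a n m)
      (q := fun _ _ => 0)
      (p := fun k a => bsum N R S (k + 1) a fun n m => p k a n m)
      (fun k a h1 h2 h3 => by
        rw [← bsum_outer h3 R S (fun n m => SG μ J (W k a n m)), ← bsum_smul, ← bsum_add,
          add_zero]
        refine bsum_mono fun n m => ?_
        rw [out k a h2 h3 n m]
        exact SG_row (psd _ _ _ _) (psd _ _ _ _) hμ J)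
      (fun k a h1 h2 h3 => by
        rw [← bsum_mid (by omega : k < N) R S (fun n m => SG μ J (W k a n m)), ← bsum_add,
          ← bsum_add]
        exact bsum_mono fun n m => mid k a n m h1 h2 h3)
      r (N - r) (by omega) (by omega)
    have e1 : 0 ≤ bsum N R S (N - r) (N - r + r) fun n m => SG μ J (W (N - r) (N - r + r) n m) :=
      bsum_nonneg fun n m => SG_nonneg (psd _ _ _ _) hμ J
    have e2 : (bsum N R S k₀ (k₀ + r) fun n m => SG μ J (W k₀ (k₀ + r) n m))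
        ≤ ((J : ℝ) + 1) * H := by
      have h1 := (he k₀ (k₀ + r) le_rfl (by omega) hr).trans h0
      have h2 : (bsum N R S k₀ (k₀ + r) fun n m => SG μ J (W k₀ (k₀ + r) n m))
          ≤ bsum N R S k₀ (k₀ + r) fun n m => ((J : ℝ) + 1) * (W k₀ (k₀ + r) n m).trace :=
        bsum_mono fun n m => SG_le (psd _ _ _ _) hμ J
      rw [bsum_smul] at h2
      exact h2.trans (mul_le_mul_of_nonneg_left h1 (by positivity))
    have e4 := hQm r
    simp only [bsum, sum_const_zero, add_zero] at key e1 e2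
    linarith
  · rw [Ico_eq_empty (by omega), sum_empty, sum_empty]
    have : 0 ≤ ((J : ℝ) + 1) * H := by positivity
    linarith

/-- **The three numbers of a capped family with exact outer means.** -/
theorem TV_w (hkN : k₀ ≤ N) (hμ : 0 < μ) (psd : ∀ k a n m, (W k a n m).PosSemidef)
    (out : ∀ k, OutM N k (W k)) (nγ : ∀ k a n m, 0 ≤ γ k a n m)
    (mid : ∀ k a n m, k₀ ≤ k → k + 1 ≤ a → a ≤ N → SG μ J (W (k + 1) a n m) + γ k a n m
      ≤ (1 / 2) * (SG μ J (W k a n (2 * m)) + SG μ J (W k a n (2 * m + 1))) + p k a n m)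
    (he : ∀ k a, k₀ ≤ k → k ≤ a → a ≤ N →
      (2 : ℝ) ^ a * 2 ^ k * ∑ m ∈ iv (N - k) S, ∑ n ∈ iv (N - a) R, (W k a n m).trace ≤ e k)
    (h0 : e k₀ ≤ H) (hT : ∑ k ∈ Icc k₀ N, (3 / 4 : ℝ) ^ (N - k) * e k ≤ 4 * H)
    (hQm : ∀ r, ∑ k ∈ Ico k₀ (N - r), (2 : ℝ) ^ (k + 1 + r) * 2 ^ (k + 1)
      * ∑ m ∈ iv (N - (k + 1)) S, ∑ n ∈ iv (N - (k + 1 + r)) R, p k (k + 1 + r) n m ≤ Qm)
    {j : ℕ} (hj : j ≤ J) :
    TV k₀ N R S (fun k a n m => phs ((μ / 4 ^ j)⁻¹) (W k a n m))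
      ≤ 700 * (μ / 4 ^ j)⁻¹ * (((J : ℝ) + 1) * H + Qm) := by
  have en : ∀ k, k₀ ≤ k → k ≤ N → 0 ≤ e k := fun k h1 h2 =>
    (bsum_nonneg (R := R) (S := S) (k := k) (a := k) (N := N)
      (f := fun n m => (W k k n m).trace) fun _ _ => (psd _ _ _ _).trace_nonneg).trans
      (he k k h1 le_rfl h2)
  have hH0 : 0 ≤ H := (en k₀ le_rfl hkN).trans h0
  have hM0 : 0 ≤ Qm := by
    have := hQm N
    rwa [Nat.sub_self, Ico_eq_empty (by omega), sum_empty] at this
  have own := own_w hμ psd out mid he hH0 h0 hQm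
  have hμj : 0 < μ / 4 ^ j := by positivity
  set s : ℝ := (μ / 4 ^ j)⁻¹ with hs
  have s0 : 0 < s := inv_pos.2 hμj
  have hsi : s⁻¹ = μ / 4 ^ j := by rw [hs, inv_inv]
  set X : ℝ := ((J : ℝ) + 1) * H + Qm with hX
  have hJ : (0 : ℝ) ≤ J := Nat.cast_nonneg J
  have hHX : H ≤ X := by rw [hX]; nlinarith
  have hX0 : 0 ≤ X := hH0.trans hHX
  -- own energies
  have hEW : ∀ k a, k₀ ≤ k → k ≤ a → a ≤ N →
      EW N R S k (fun a n m => phs s (W k a n m)) a ≤ s * e k := by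
    intro k a h1 h2 h3
    have e1 : EW N R S k (fun a n m => phs s (W k a n m)) a
        = bsum N R S k a fun n m => H389.sq (phs s (W k a n m)) := rfl
    have e2 : (bsum N R S k a fun n m => H389.sq (phs s (W k a n m)))
        ≤ bsum N R S k a fun n m => s * (W k a n m).trace :=
      bsum_mono fun n m => sq_phs_le (psd _ _ _ _) s0
    rw [bsum_smul] at e2
    have e3 := he k a h1 h2 h3
    have e4 : s * (bsum N R S k a fun n m => (W k a n m).trace) ≤ s * e k :=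
      mul_le_mul_of_nonneg_left e3 s0.le
    linarith
  -- level energies
  have hlev : ∀ k r, k₀ ≤ k → k + r < N →
      (2 : ℝ) ^ k * ∑ m ∈ iv (N - k) S, lvV N R (fun a n => phs s (W k a n m)) (k + r)
      ≤ 4 * s * ((2 : ℝ) ^ (k + r + 1) * 2 ^ k * ∑ m ∈ iv (N - k) S,
          ∑ n ∈ iv (N - (k + r + 1)) R,
            SD μ J (W k (k + r) (2 * n) m) (W k (k + r) (2 * n + 1) m)) := by
    intro k r h1 h2
    have e1 : (2 : ℝ) ^ k * ∑ m ∈ iv (N - k) S, lvV N R (fun a n => phs s (W k a n m)) (k + r)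
        = (1 / 2) * bsum N R S k (k + r + 1) fun n m =>
          (H389.sq (phs s (W k (k + r) (2 * n) m) - phs s (W k (k + r + 1) n m))
            + H389.sq (phs s (W k (k + r) (2 * n + 1) m) - phs s (W k (k + r + 1) n m))) := by
      unfold lvV bsum
      rw [← mul_sum, pow_succ]
      ring
    have e2 : (bsum N R S k (k + r + 1) fun n m =>
          (H389.sq (phs s (W k (k + r) (2 * n) m) - phs s (W k (k + r + 1) n m))
            + H389.sq (phs s (W k (k + r) (2 * n + 1) m) - phs s (W k (k + r + 1) n m))))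
        ≤ bsum N R S k (k + r + 1) fun n m =>
          8 * s * SD μ J (W k (k + r) (2 * n) m) (W k (k + r) (2 * n + 1) m) := by
      refine bsum_mono fun n m => ?_
      rw [out k (k + r) (by omega) h2 n m]
      have f1 := phs_step (psd k (k + r) (2 * n) m) (psd k (k + r) (2 * n + 1) m) s0 0 0
      rw [mv_zero, mv_zero] at f1
      have f3 := le_SD (psd k (k + r) (2 * n) m) (psd k (k + r) (2 * n + 1) m) hμ hj
      rw [← hs] at f3
      rw [hsi] at f1
      have f5 := mul_le_mul_of_nonneg_left f3 (by positivity : (0 : ℝ) ≤ 8 * s)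
      simp only [Matrix.zero_mul, trace_zero, add_zero, mul_zero] at f1
      nlinarith
    rw [bsum_smul] at e2
    rw [e1]
    unfold bsum at e2 ⊢
    linarith
  -- the sum over all diagonals
  have hdiag : ∀ r, ∑ k ∈ Ico k₀ (N - r),
      ((2 : ℝ) ^ k * ∑ m ∈ iv (N - k) S, lvV N R (fun a n => phs s (W k a n m)) (k + r))
      ≤ 8 * (s * X) := by
    intro r
    have e1 := own r
    have e2 : 0 ≤ ∑ k ∈ Ico k₀ (N - r), (2 : ℝ) ^ (k + 1 + r) * 2 ^ (k + 1)
        * ∑ m ∈ iv (N - (k + 1)) S, ∑ n ∈ iv (N - (k + 1 + r)) R, γ k (k + 1 + r) n m :=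
      sum_nonneg fun k _ => mul_nonneg (by positivity)
        (sum_nonneg fun m _ => sum_nonneg fun n _ => nγ _ _ _ _)
    rw [← mul_sum] at e1
    calc ∑ k ∈ Ico k₀ (N - r), ((2 : ℝ) ^ k * ∑ m ∈ iv (N - k) S,
          lvV N R (fun a n => phs s (W k a n m)) (k + r))
        ≤ ∑ k ∈ Ico k₀ (N - r), 4 * s * ((2 : ℝ) ^ (k + r + 1) * 2 ^ k * ∑ m ∈ iv (N - k) S,
          ∑ n ∈ iv (N - (k + r + 1)) R,
            SD μ J (W k (k + r) (2 * n) m) (W k (k + r) (2 * n + 1) m)) :=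
          sum_le_sum fun k hk => by
            have := mem_Ico.1 hk
            exact hlev k r this.1 (by omega)
      _ ≤ 4 * s * (2 * X) := by
          rw [← mul_sum]
          exact mul_le_mul_of_nonneg_left (by linarith) (by positivity)
      _ = 8 * (s * X) := by ring
  have hsX : 0 ≤ s * X := mul_nonneg s0.le hX0
  have hall := diag_sum (k₀ := k₀) (N := N)
    (f := fun k r => (2 : ℝ) ^ k * ∑ m ∈ iv (N - k) S,
      lvV N R (fun a n => phs s (W k a n m)) (k + r)) hdiag (by positivity)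
  have hIcc : ∑ k ∈ Ico k₀ N, (3 / 4 : ℝ) ^ (N - k) * e k + e N ≤ 4 * H := by
    have e1 : ∑ k ∈ Icc k₀ N, (3 / 4 : ℝ) ^ (N - k) * e k
        = ∑ k ∈ Ico k₀ N, (3 / 4 : ℝ) ^ (N - k) * e k + e N := by
      rw [← Finset.Ico_insert_right hkN, sum_insert right_notMem_Ico, Nat.sub_self, pow_zero,
        one_mul, add_comm]
    linarith
  have htop : ∑ k ∈ Ico k₀ N, (3 / 4 : ℝ) ^ (N - k)
      * EW N R S k (fun a n m => phs s (W k a n m)) N + s * e N ≤ 4 * (s * X) := by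
    have h1 : ∑ k ∈ Ico k₀ N, (3 / 4 : ℝ) ^ (N - k)
        * EW N R S k (fun a n m => phs s (W k a n m)) N
        ≤ ∑ k ∈ Ico k₀ N, s * ((3 / 4 : ℝ) ^ (N - k) * e k) :=
      sum_le_sum fun k hk => by
        have := mem_Ico.1 hk
        have h2 := hEW k N this.1 (by omega) le_rfl
        have h3 := mul_le_mul_of_nonneg_left h2 (show (0 : ℝ) ≤ (3 / 4) ^ (N - k) by positivity)
        linarith
    rw [← mul_sum] at h1
    have h4 := mul_le_mul_of_nonneg_left hIcc s0.le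
    have h5 : s * (4 * H) ≤ 4 * (s * X) := by
      have := mul_le_mul_of_nonneg_left hHX s0.le
      linarith
    rw [mul_add] at h4
    linarith
  have hSVM : ∀ k, SVM N k R S (fun a n m => phs s (W k a n m))
      = ∑ r ∈ range (N - k), (3 / 4 : ℝ) ^ r * ((2 : ℝ) ^ k * ∑ m ∈ iv (N - k) S,
          lvV N R (fun a n => phs s (W k a n m)) (k + r))
        + (3 / 4 : ℝ) ^ (N - k) * EW N R S k (fun a n m => phs s (W k a n m)) N := by
    intro k
    unfold SVM SV
    rw [EW_eq, sum_add_distrib, mul_add, sum_comm]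
    congr 1
    · rw [mul_sum]
      refine sum_congr rfl fun r _ => ?_
      rw [← mul_sum]
      ring
    · rw [← mul_sum]
      ring
  have h1 := hEW k₀ k₀ le_rfl le_rfl hkN
  have h2 := hEW N N hkN le_rfl le_rfl
  have h3 : s * e k₀ ≤ s * X := mul_le_mul_of_nonneg_left (h0.trans hHX) s0.le
  have h4 : 0 ≤ s * e N := mul_nonneg s0.le (en N hkN le_rfl)
  unfold TV
  simp only [hSVM, sum_add_distrib]
  linarith

end tv

end

end Vale.Agent.P141.H293
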