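import Vale.Agent.P141.H293.OwnC
import Vale.Agent.P141.H389.RealAC
import Vale.Agent.P141.H336.TVst

/-!
# P141, line (A): the moving stack, hub `x3`, as an instance of `H336.Stk`

Weight field `W` (children `W + Nn ± M` on the two halves of the middle cell), slot `b k` at the
middle scale `k`; rows may be killed on cells on the way down (`Kill`).
-/

namespace Vale.Agent.P141.H293

open Finset Matrix Vale.Agent.P141.PL Vale.Agent.P141.PL.H103 Vale.Agent.P141.H103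
open Vale.Agent.P141.H505 Vale.Agent.P141.H258
open Vale.Agent.P141.H389 (Wf XW XWs)
open Vale.Agent.P075 (Ix val rad GX phi res phi_psd res_psd trace_mul_nonneg)
open Vale.Agent.P141.H585.PairCh (phs dls mv_zero)

noncomputable section

section gx

variable {n : Type*} [Fintype n] [DecidableEq n]

/-- the energy grows at most by the trace -/
theorem GX_add_le {X Y : Matrix n n ℝ} (hX : X.PosSemidef) (hY : Y.PosSemidef) :
    GX (X + Y) ≤ GX X + Y.trace := by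
  have h := GX_tangent (hX.add hY) hX
  have e : X - (X + Y) = -Y := by abel
  have h2 := trace_mul_nonneg (res_psd (hX.add hY)) hY
  rw [e, phi, Matrix.mul_neg, trace_neg, Matrix.sub_mul, Matrix.one_mul, trace_sub] at h
  linarith

theorem SG_add_le {X Y : Matrix n n ℝ} (hX : X.PosSemidef) (hY : Y.PosSemidef) {μ : ℝ}
    (hμ : 0 < μ) (J : ℕ) : SG μ J (X + Y) ≤ SG μ J X + ((J : ℝ) + 1) * Y.trace := by
  unfold SG
  have h : ∀ j ∈ range (J + 1), (μ / 4 ^ j)⁻¹ * GX ((μ / 4 ^ j) • (X + Y))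
      ≤ (μ / 4 ^ j)⁻¹ * GX ((μ / 4 ^ j) • X) + Y.trace := by
    intro j _
    have hj : 0 < μ / 4 ^ j := by positivity
    have h1 := GX_add_le (smul_psd hX hj.le) (smul_psd hY hj.le)
    rw [← smul_add, trace_smul, smul_eq_mul] at h1
    have h2 := mul_le_mul_of_nonneg_left h1 (inv_nonneg.2 hj.le)
    rwa [mul_add, ← mul_assoc _ _ Y.trace, inv_mul_cancel₀ hj.ne', one_mul] at h2
  refine (sum_le_sum h).trans (le_of_eq ?_)
  rw [sum_add_distrib, sum_const, card_range, nsmul_eq_mul]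
  push_cast
  ring

theorem SC_nonneg {m : Type*} [Fintype m] [DecidableEq m] {X : Matrix (m ⊕ m) (m ⊕ m) ℝ}
    (hX : X.PosSemidef) {μ : ℝ} (hμ : 0 < μ) (J : ℕ) : 0 ≤ SC μ J (rad m) X :=
  sum_nonneg fun i _ => by
    have hi : (0 : ℝ) ≤ μ / 4 ^ i := by positivity
    exact mul_nonneg (inv_nonneg.2 hi) (trace_mul_nonneg (phi_psd (smul_psd hX hi))
      (P075.refl_psd (phi_psd (smul_psd hX hi)) P075.rad_symm))

end gx

variable {κ : Type*} [Fintype κ] [DecidableEq κ]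

/-! ### Traces -/

/-- mass of the slot `b` with the weight `L` (middle scale `k`) -/
def ms (N : ℕ) (R₁ S : ℤ) (b : ℤ → ℤ → κ → ℝ) (L : ℤ → ℤ → Matrix κ κ ℝ) (k : ℕ) : ℝ :=
  ∑ x ∈ iv N R₁, ∑ y ∈ iv N S, b x y ⬝ᵥ L x (ix k y) *ᵥ b x y

theorem tr_QW1 (a k : ℕ) (b : ℤ → ℤ → κ → ℝ) (T : ℤ → Matrix κ κ ℝ) (n m : ℤ) :
    (QW a k b T n m).trace
      = ((2 : ℝ) ^ a * 2 ^ k)⁻¹ * ∑ x ∈ iv a n, ∑ y ∈ iv k m, b x y ⬝ᵥ T x *ᵥ b x y := by
  rw [H389.QW_eq, H389.tr_quad]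

theorem tr_QW_succ (a k : ℕ) (b : ℤ → ℤ → κ → ℝ) (T : ℤ → Matrix κ κ ℝ) (n m : ℤ) :
    (QW a k b T n (2 * m)).trace + (QW a k b T n (2 * m + 1)).trace
      = 2 * (QW a (k + 1) b T n m).trace := by
  rw [tr_QW1, tr_QW1, tr_QW1, ← mul_add, ← Finset.sum_add_distrib]
  have e : ∀ x, ∑ y ∈ iv k (2 * m), b x y ⬝ᵥ T x *ᵥ b x y
      + ∑ y ∈ iv k (2 * m + 1), b x y ⬝ᵥ T x *ᵥ b x y
      = ∑ y ∈ iv (k + 1) m, b x y ⬝ᵥ T x *ᵥ b x y := fun x => (sum_iv_two k m _).symm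
  rw [Finset.sum_congr rfl fun x _ => e x, ← mul_assoc]
  congr 1
  rw [pow_succ]
  field_simp

/-- the traces over the plane -/
theorem bsum_tr {N a k : ℕ} (ha : a ≤ N) (hk : k ≤ N) (R₁ S : ℤ) (b : ℤ → ℤ → κ → ℝ)
    (L : ℤ → ℤ → Matrix κ κ ℝ) :
    (2 : ℝ) ^ a * 2 ^ k * ∑ m ∈ iv (N - k) S, ∑ n ∈ iv (N - a) R₁,
      (QW a k b (fun x => L x m) n m).trace = ms N R₁ S b L k := by
  have e1 : ∀ m, ∑ n ∈ iv (N - a) R₁, (QW a k b (fun x => L x m) n m).trace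
      = ((2 : ℝ) ^ a * 2 ^ k)⁻¹ * ∑ y ∈ iv k m, ∑ x ∈ iv N R₁, b x y ⬝ᵥ L x m *ᵥ b x y := by
    intro m
    simp only [tr_QW1]
    rw [← Finset.mul_sum, sum_sub ha R₁ fun _ x => ∑ y ∈ iv k m, b x y ⬝ᵥ L x m *ᵥ b x y,
      Finset.sum_comm]
  simp only [e1]
  rw [← Finset.mul_sum, ← mul_assoc, mul_inv_cancel₀ (by positivity), one_mul,
    sum_sub hk S fun m y => ∑ x ∈ iv N R₁, b x y ⬝ᵥ L x m *ᵥ b x y, Finset.sum_comm]
  rfl

/-! ### Kills -/

/-- on the way down, a row is kept or killed on every cell -/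
def Kill (k₀ N : ℕ) (b : ℕ → ℤ → ℤ → κ → ℝ) : Prop :=
  ∀ k x m, k₀ ≤ k → k < N →
    (∀ y ∈ iv k m, b k x y = b (k + 1) x y) ∨ ∀ y ∈ iv k m, b k x y = 0

omit [DecidableEq κ] in
theorem QW_kill {a k : ℕ} {b b' : ℤ → ℤ → κ → ℝ} {m : ℤ}
    (h : ∀ x, (∀ y ∈ iv k m, b' x y = b x y) ∨ ∀ y ∈ iv k m, b' x y = 0)
    (T : ℤ → Matrix κ κ ℝ) (n : ℤ) :
    QW a k b T n m = QW a k b' T n m + QW a k (fun x y => b x y - b' x y) T n m := by
  have hy : ∀ j : Ix k, (2 : ℤ) ^ k * m + ((val k j : ℕ) : ℤ) ∈ iv k m := by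
    intro j
    have h1 := P075.val_lt k j
    rw [iv, mem_Ico]
    constructor
    · linarith [Int.natCast_nonneg (val k j)]
    · have : ((val k j : ℕ) : ℤ) < 2 ^ k := by exact_mod_cast h1
      linarith
  ext j j'
  rw [Matrix.add_apply, QW, QW, QW, ← mul_add, ← Finset.sum_add_distrib]
  congr 1
  refine Finset.sum_congr rfl fun x _ => ?_
  rcases h x with hx | hx
  · rw [hx _ (hy j), hx _ (hy j'), sub_self, zero_dotProduct, add_zero]
  · rw [hx _ (hy j), hx _ (hy j'), sub_zero, sub_zero, zero_dotProduct, zero_add]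

/-- error of the middle step -/
def pC (J : ℕ) (W M Nm : ℤ → ℕ → ℤ → Matrix κ κ ℝ) (b : ℕ → ℤ → ℤ → κ → ℝ) (k a : ℕ)
    (n m : ℤ) : ℝ :=
  64 * ((J : ℝ) + 1) ^ 3 * (QW a (k + 1) (b (k + 1))
      (fun x => M x (k + 1) m * (W x (k + 1) m)⁻¹ * M x (k + 1) m) n m).trace
    + ((J : ℝ) + 1) * (QW a (k + 1) (b (k + 1)) (fun x => Nm x (k + 1) m) n m).trace
    + (1 / 2) * ((J : ℝ) + 1)
      * (((QW a k (b (k + 1)) (fun x => W x k (2 * m)) n (2 * m)).trace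
          - (QW a k (b k) (fun x => W x k (2 * m)) n (2 * m)).trace)
        + ((QW a k (b (k + 1)) (fun x => W x k (2 * m + 1)) n (2 * m + 1)).trace
          - (QW a k (b k) (fun x => W x k (2 * m + 1)) n (2 * m + 1)).trace))

theorem unit_det {X : Matrix κ κ ℝ} (h : X.PosDef) : IsUnit X.det :=
  (Matrix.isUnit_iff_isUnit_det _).1 h.isUnit

/-- **The middle step with kills.** -/
theorem mid_C {k₀ N : ℕ} {W Nn M Nm : ℤ → ℕ → ℤ → Matrix κ κ ℝ} (h : Wf N W Nn M Nm)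
    {b : ℕ → ℤ → ℤ → κ → ℝ} (hb : Kill k₀ N b) {μ : ℝ} (hμ : 0 < μ) (J : ℕ) {k a : ℕ}
    (hk₀ : k₀ ≤ k) (hk : k < N) (n m : ℤ)
    (cap : μ / 4 ^ J * (2 * (QW a (k + 1) (b (k + 1)) (fun x => W x (k + 1) m) n m).trace) ≤ 1) :
    SG μ J (XW (b (k + 1)) W (k + 1) a n m)
        + (1 / 4) * SC μ J (rad (Ix k)) (XWs (b (k + 1)) W k a n m)
      ≤ (1 / 2) * (SG μ J (XW (b k) W k a n (2 * m)) + SG μ J (XW (b k) W k a n (2 * m + 1)))
        + pC J W M Nm b k a n m := by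
  have hμJ : 0 < μ / 4 ^ J := by positivity
  have pW : ∀ x k m, (W x k m).PosSemidef := fun x k m => (h.pd x k m).posSemidef
  have q0 : 0 ≤ (QW a k (b (k + 1)) (fun x => W x (k + 1) m) n (2 * m)).trace :=
    (QW_psd (fun x => pW x (k + 1) m) n (2 * m)).trace_nonneg
  have q1 : 0 ≤ (QW a k (b (k + 1)) (fun x => W x (k + 1) m) n (2 * m + 1)).trace :=
    (QW_psd (fun x => pW x (k + 1) m) n (2 * m + 1)).trace_nonneg
  have t0 := tr_QW_succ a k (b (k + 1)) (fun x => W x (k + 1) m) n m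
  have cap2 : μ / 4 ^ J * ((QW a k (b (k + 1)) (fun x => W x (k + 1) m) n (2 * m)).trace
      + (QW a k (b (k + 1)) (fun x => W x (k + 1) m) n (2 * m + 1)).trace) ≤ 1 := by
    rw [t0]; exact cap
  rw [mul_add] at cap2
  have c0 : μ / 4 ^ J * (QW a k (b (k + 1)) (fun x => W x (k + 1) m) n (2 * m)).trace ≤ 1 := by
    have := mul_nonneg hμJ.le q1
    linarith
  have c1 : μ / 4 ^ J * (QW a k (b (k + 1)) (fun x => W x (k + 1) m) n (2 * m + 1)).trace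
      ≤ 1 := by
    have := mul_nonneg hμJ.le q0
    linarith
  have w0 : ∀ x, W x (k + 1) m + (Nn x (k + 1) m + Nm x (k + 1) m) - Nm x (k + 1) m
      + M x (k + 1) m = W x k (2 * m) := by
    intro x; rw [h.left x k m hk]; abel
  have w1 : ∀ x, W x (k + 1) m + (Nn x (k + 1) m + Nm x (k + 1) m) - Nm x (k + 1) m
      - M x (k + 1) m = W x k (2 * m + 1) := by
    intro x; rw [h.right x k m hk]; abel
  have key := mid_QW a k (b (k + 1)) (T := fun x => W x (k + 1) m)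
    (M := fun x => M x (k + 1) m) (Np := fun x => Nn x (k + 1) m + Nm x (k + 1) m)
    (Nm := fun x => Nm x (k + 1) m) (fun x => pW x _ _) (fun x => unit_det (h.pd x _ _))
    (fun x => h.sM x _ _) (fun x => h.pN x _ _) (fun x => h.pNm x _ _)
    (fun x => by rw [w0]; exact pW x _ _) (fun x => by rw [w1]; exact pW x _ _) n m hμ J c0 c1
  simp only [w0, w1] at key
  -- kills
  have k0 := QW_kill (a := a) (b := b (k + 1)) (b' := b k) (m := 2 * m)
    (fun x => hb k x (2 * m) hk₀ hk) (fun x => W x k (2 * m)) n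
  have k1 := QW_kill (a := a) (b := b (k + 1)) (b' := b k) (m := 2 * m + 1)
    (fun x => hb k x (2 * m + 1) hk₀ hk) (fun x => W x k (2 * m + 1)) n
  have s0 := SG_add_le (X := QW a k (b k) (fun x => W x k (2 * m)) n (2 * m))
    (Y := QW a k (fun x y => b (k + 1) x y - b k x y) (fun x => W x k (2 * m)) n (2 * m))
    (QW_psd (fun x => pW x _ _) _ _) (QW_psd (fun x => pW x _ _) _ _) hμ J
  have s1 := SG_add_le (X := QW a k (b k) (fun x => W x k (2 * m + 1)) n (2 * m + 1))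
    (Y := QW a k (fun x y => b (k + 1) x y - b k x y) (fun x => W x k (2 * m + 1)) n (2 * m + 1))
    (QW_psd (fun x => pW x _ _) _ _) (QW_psd (fun x => pW x _ _) _ _) hμ J
  have u0 := congrArg Matrix.trace k0
  have u1 := congrArg Matrix.trace k1
  rw [trace_add] at u0 u1
  rw [← k0] at s0
  rw [← k1] at s1
  rw [tr_QW_succ, tr_QW_succ] at key
  have f1 : SG μ J (XW (b (k + 1)) W (k + 1) a n m)
      = SG μ J (QW a (k + 1) (b (k + 1)) (fun x => W x (k + 1) m) n m) := rfl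
  have f2 : SC μ J (rad (Ix k)) (XWs (b (k + 1)) W k a n m)
      = SC (n := Ix k ⊕ Ix k) μ J (rad (Ix k))
        (QW a (k + 1) (b (k + 1)) (fun x => W x (k + 1) m) n m) := rfl
  have f3 : SG μ J (XW (b k) W k a n (2 * m))
      = SG μ J (QW a k (b k) (fun x => W x k (2 * m)) n (2 * m)) := rfl
  have f4 : SG μ J (XW (b k) W k a n (2 * m + 1))
      = SG μ J (QW a k (b k) (fun x => W x k (2 * m + 1)) n (2 * m + 1)) := rfl
  rw [f1, f2, f3, f4, pC]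
  have e0 : (QW a k (fun x y => b (k + 1) x y - b k x y) (fun x => W x k (2 * m)) n
      (2 * m)).trace = (QW a k (b (k + 1)) (fun x => W x k (2 * m)) n (2 * m)).trace
        - (QW a k (b k) (fun x => W x k (2 * m)) n (2 * m)).trace := by linarith
  have e1 : (QW a k (fun x y => b (k + 1) x y - b k x y) (fun x => W x k (2 * m + 1)) n
      (2 * m + 1)).trace = (QW a k (b (k + 1)) (fun x => W x k (2 * m + 1)) n (2 * m + 1)).trace
        - (QW a k (b k) (fun x => W x k (2 * m + 1)) n (2 * m + 1)).trace := by linarith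
  rw [e0] at s0
  rw [e1] at s1
  linarith

/-- the error of one scale, over the plane -/
def cC (J N : ℕ) (R₁ S : ℤ) (W M Nm : ℤ → ℕ → ℤ → Matrix κ κ ℝ) (b : ℕ → ℤ → ℤ → κ → ℝ)
    (k : ℕ) : ℝ :=
  64 * ((J : ℝ) + 1) ^ 3 * ms N R₁ S (b (k + 1))
      (fun x m => M x (k + 1) m * (W x (k + 1) m)⁻¹ * M x (k + 1) m) (k + 1)
    + ((J : ℝ) + 1) * ms N R₁ S (b (k + 1)) (fun x m => Nm x (k + 1) m) (k + 1)
    + ((J : ℝ) + 1) * (ms N R₁ S (b (k + 1)) (fun x m => W x k m) k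
      - ms N R₁ S (b k) (fun x m => W x k m) k)

theorem two_mid {N a k : ℕ} (ha : a ≤ N) (hk : k < N) (R₁ S : ℤ) (b : ℤ → ℤ → κ → ℝ)
    (L : ℤ → ℤ → Matrix κ κ ℝ) :
    (2 : ℝ) ^ a * 2 ^ (k + 1) * ∑ m ∈ iv (N - (k + 1)) S, ∑ n ∈ iv (N - a) R₁,
      ((QW a k b (fun x => L x (2 * m)) n (2 * m)).trace
        + (QW a k b (fun x => L x (2 * m + 1)) n (2 * m + 1)).trace)
      = 2 * ms N R₁ S b L k := by
  rw [← bsum_tr ha hk.le]
  have e : N - k = (N - (k + 1)) + 1 := by omega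
  rw [e, H588.sum_iv_succ]
  simp only [Finset.sum_add_distrib]
  rw [pow_succ]
  ring

theorem pC_sum {N a k : ℕ} (ha : a ≤ N) (hk : k < N) (J : ℕ) (R₁ S : ℤ)
    (W M Nm : ℤ → ℕ → ℤ → Matrix κ κ ℝ) (b : ℕ → ℤ → ℤ → κ → ℝ) :
    (2 : ℝ) ^ a * 2 ^ (k + 1) * ∑ m ∈ iv (N - (k + 1)) S, ∑ n ∈ iv (N - a) R₁,
      pC J W M Nm b k a n m = cC J N R₁ S W M Nm b k := by
  have h1 := bsum_tr ha (show k + 1 ≤ N from hk) R₁ S (b (k + 1))
    (fun x m => M x (k + 1) m * (W x (k + 1) m)⁻¹ * M x (k + 1) m)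
  have h2 := bsum_tr ha (show k + 1 ≤ N from hk) R₁ S (b (k + 1)) (fun x m => Nm x (k + 1) m)
  have h3 := two_mid ha hk R₁ S (b (k + 1)) (fun x m => W x k m)
  have h4 := two_mid ha hk R₁ S (b k) (fun x m => W x k m)
  unfold cC
  rw [← h1, ← h2]
  have h5 : ms N R₁ S (b (k + 1)) (fun x m => W x k m) k
      = (1 / 2) * ((2 : ℝ) ^ a * 2 ^ (k + 1) * ∑ m ∈ iv (N - (k + 1)) S, ∑ n ∈ iv (N - a) R₁,
      ((QW a k (b (k + 1)) (fun x => W x k (2 * m)) n (2 * m)).trace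
        + (QW a k (b (k + 1)) (fun x => W x k (2 * m + 1)) n (2 * m + 1)).trace)) := by
    linarith
  have h6 : ms N R₁ S (b k) (fun x m => W x k m) k
      = (1 / 2) * ((2 : ℝ) ^ a * 2 ^ (k + 1) * ∑ m ∈ iv (N - (k + 1)) S, ∑ n ∈ iv (N - a) R₁,
      ((QW a k (b k) (fun x => W x k (2 * m)) n (2 * m)).trace
        + (QW a k (b k) (fun x => W x k (2 * m + 1)) n (2 * m + 1)).trace)) := by
    linarith
  rw [h5, h6]
  unfold pC
  simp only [Finset.sum_add_distrib, ← Finset.mul_sum, Finset.sum_sub_distrib]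
  ring

omit [DecidableEq κ] in
theorem ms_nonneg (N : ℕ) (R₁ S : ℤ) (b : ℤ → ℤ → κ → ℝ) {L : ℤ → ℤ → Matrix κ κ ℝ} (k : ℕ)
    (hL : ∀ x m, (L x m).PosSemidef) : 0 ≤ ms N R₁ S b L k :=
  Finset.sum_nonneg fun x _ => Finset.sum_nonneg fun y _ => by
    have := (hL x (ix k y)).dotProduct_mulVec_nonneg (b x y)
    rwa [star_trivial] at this

omit [DecidableEq κ] in
theorem ms_kill {k₀ N : ℕ} {b : ℕ → ℤ → ℤ → κ → ℝ} (hb : Kill k₀ N b) (R₁ S : ℤ) {k : ℕ}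
    (hk₀ : k₀ ≤ k) (hk : k < N) {L : ℤ → ℤ → Matrix κ κ ℝ} (hL : ∀ x m, (L x m).PosSemidef) :
    ms N R₁ S (b k) L k ≤ ms N R₁ S (b (k + 1)) L k := by
  refine Finset.sum_le_sum fun x _ => Finset.sum_le_sum fun y _ => ?_
  have hy : y ∈ iv k (ix k y) := mem_iv.2 rfl
  rcases hb k x (ix k y) hk₀ hk with h | h
  · rw [h y hy]
  · rw [h y hy, zero_dotProduct]
    have := (hL x (ix k y)).dotProduct_mulVec_nonneg (b (k + 1) x y)
    rwa [star_trivial] at this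

theorem cC_nonneg {k₀ N : ℕ} {W Nn M Nm : ℤ → ℕ → ℤ → Matrix κ κ ℝ} (h : Wf N W Nn M Nm)
    {b : ℕ → ℤ → ℤ → κ → ℝ} (hb : Kill k₀ N b) (J : ℕ) (R₁ S : ℤ) {k : ℕ}
    (hk₀ : k₀ ≤ k) (hk : k < N) : 0 ≤ cC J N R₁ S W M Nm b k := by
  have h1 : 0 ≤ ms N R₁ S (b (k + 1))
      (fun x m => M x (k + 1) m * (W x (k + 1) m)⁻¹ * M x (k + 1) m) (k + 1) :=
    Finset.sum_nonneg fun x _ => Finset.sum_nonneg fun y _ =>
      H389.quad_nonneg (h.pd x _ _) (h.sM x _ _) _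
  have h2 := ms_nonneg N R₁ S (b (k + 1)) (k + 1) fun x m => h.pNm x (k + 1) m
  have h3 := ms_kill hb R₁ S hk₀ hk fun x m => (h.pd x k m).posSemidef
  unfold cC
  have h4 : 0 ≤ ms N R₁ S (b (k + 1)) (fun x m => W x k m) k
      - ms N R₁ S (b k) (fun x m => W x k m) k := by linarith
  positivity

/-- **The moving stack at hub `x3` is an instance of `H336.Stk`.** -/
theorem stkC {k₀ N : ℕ} (hkN : k₀ ≤ N) (R₁ S : ℤ) {W Nn M Nm : ℤ → ℕ → ℤ → Matrix κ κ ℝ}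
    (h : Wf N W Nn M Nm) {b : ℕ → ℤ → ℤ → κ → ℝ} (hb : Kill k₀ N b) {μ : ℝ} (hμ : 0 < μ)
    (J : ℕ)
    (cap : ∀ k a n m, k₀ ≤ k → k + 1 ≤ a → a ≤ N →
      μ / 4 ^ J * (2 * (QW a (k + 1) (b (k + 1)) (fun x => W x (k + 1) m) n m).trace) ≤ 1)
    {H Qm : ℝ} (hH : ∀ k, k₀ ≤ k → k ≤ N → ms N R₁ S (b k) (fun x m => W x k m) k ≤ H)
    (hQ : ∑ k ∈ Ico k₀ N, cC J N R₁ S W M Nm b k ≤ Qm) :
    H336.Stk k₀ N R₁ S μ J (fun k => XW (b k) W k) (fun k a n m => XW (b k) W k a (2 * n) m)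
      (fun k a n m => XW (b k) W k a (2 * n + 1) m) (fun _ _ _ _ => 0) (fun _ _ _ _ => 0)
      (fun _ _ _ _ => 0) (fun k a n m => pC J W M Nm b k a n m)
      (fun k a n m => (1 / 4) * SC μ J (rad (Ix k)) (XWs (b (k + 1)) W k a n m)) H 0 Qm where
  hkN := hkN
  hμ := hμ
  psd := fun k a n m => H389.XW_psd h (b k) k a n m
  psd0 := fun k a n m => H389.XW_psd h (b k) k a _ m
  psd1 := fun k a n m => H389.XW_psd h (b k) k a _ m
  nγ := fun k a n m => mul_nonneg (by norm_num)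
    (SC_nonneg (H389.XW_psd h (b (k + 1)) (k + 1) a n m) hμ J)
  par := fun k a n m h1 h2 h3 => H389.XW_out N k (b k) W a h2 h3 n m
  ch0 := fun k a n m _ _ _ => (mv_zero _).symm
  ch1 := fun k a n m _ _ _ => (mv_zero _).symm
  out := fun k a n m h1 h2 h3 => by
    rw [H389.XW_out N k (b k) W a h2 h3 n m, add_zero]
    have p0 := H389.XW_psd h (b k) k a (2 * n) m
    have p1 := H389.XW_psd h (b k) k a (2 * n + 1) m
    have hs := sum_le_sum (s := range (J + 1)) fun j _ => (by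
      have hj : 0 < μ / 4 ^ j := by positivity
      have r1 := P075.R.GX_row (smul_psd p0 hj.le) (smul_psd p1 hj.le)
      rw [← smul_add, smul_comm] at r1
      exact mul_le_mul_of_nonneg_left r1 (inv_nonneg.2 hj.le) :
      (μ / 4 ^ j)⁻¹ * (GX ((μ / 4 ^ j) • ((1 / 2 : ℝ) • (XW (b k) W k a (2 * n) m
            + XW (b k) W k a (2 * n + 1) m)))
          + (1 / 2) * (P075.delt ((μ / 4 ^ j) • XW (b k) W k a (2 * n) m)
            ((μ / 4 ^ j) • XW (b k) W k a (2 * n + 1) m)).trace)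
        ≤ (μ / 4 ^ j)⁻¹ * ((1 / 2) * (GX ((μ / 4 ^ j) • XW (b k) W k a (2 * n) m)
          + GX ((μ / 4 ^ j) • XW (b k) W k a (2 * n + 1) m))))
    have hd := H336.SD_nonneg p0 p1 hμ J
    unfold SG SD at *
    have e1 : ∀ u v : ℕ → ℝ, ∑ j ∈ range (J + 1), (μ / 4 ^ j)⁻¹ * (u j + (1 / 2) * v j)
        = ∑ j ∈ range (J + 1), (μ / 4 ^ j)⁻¹ * u j
          + (1 / 2) * ∑ j ∈ range (J + 1), (μ / 4 ^ j)⁻¹ * v j := by
      intro u v
      rw [Finset.mul_sum, ← Finset.sum_add_distrib]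
      exact Finset.sum_congr rfl fun j _ => by ring
    have e2 : ∀ u v : ℕ → ℝ, ∑ j ∈ range (J + 1), (μ / 4 ^ j)⁻¹ * ((1 / 2) * (u j + v j))
        = (1 / 2) * (∑ j ∈ range (J + 1), (μ / 4 ^ j)⁻¹ * u j
          + ∑ j ∈ range (J + 1), (μ / 4 ^ j)⁻¹ * v j) := by
      intro u v
      rw [← Finset.sum_add_distrib, Finset.mul_sum]
      exact Finset.sum_congr rfl fun j _ => by ring
    rw [e1, e2] at hs
    linarith
  lip := fun k a n m _ _ _ => by simp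
  mid := fun k a n m h1 h2 h3 => mid_C h hb hμ J h1 (by omega) n m (cap k a n m h1 h2 h3)
  hH := fun k a h1 h2 h3 => by
    have := bsum_tr h3 (show k ≤ N by omega) R₁ S (b k) (fun x m => W x k m)
    unfold XW
    rw [this]
    exact hH k h1 (by omega)
  hQo := fun r => by simp
  hQm := fun r => by
    have e : ∀ k ∈ Ico k₀ (N - r), (2 : ℝ) ^ (k + 1 + r) * 2 ^ (k + 1)
        * ∑ m ∈ iv (N - (k + 1)) S, ∑ n ∈ iv (N - (k + 1 + r)) R₁, pC J W M Nm b k (k + 1 + r) n m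
        = cC J N R₁ S W M Nm b k := by
      intro k hk
      rw [mem_Ico] at hk
      exact pC_sum (by omega) (by omega) J R₁ S W M Nm b
    rw [Finset.sum_congr rfl e]
    refine le_trans (Finset.sum_le_sum_of_subset_of_nonneg ?_ fun k hk _ => ?_) hQ
    · exact Ico_subset_Ico le_rfl (by omega)
    · rw [mem_Ico] at hk
      exact cC_nonneg h hb J R₁ S hk.1 hk.2

end

end Vale.Agent.P141.H293
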